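import Vale.Agent.Lib.P157.Interp

/-!
# Splitting a system into two blocks
-/

open MeasureTheory ProbabilityTheory
open scoped NNReal ENNReal

namespace Vale.Agent.P157

lemma mp_comp_inj {κ κ' : Type*} [Fintype κ] [Fintype κ'] {α : Type*} [MeasurableSpace α]
    (μ : Measure α) [IsProbabilityMeasure μ] (e : κ' → κ) (he : Function.Injective e) :
    MeasurePreserving (fun (g : κ → α) (j : κ') => g (e j))
      (Measure.pi fun _ => μ) (Measure.pi fun _ => μ) := by
  classical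
  refine ⟨by fun_prop, ?_⟩
  symm
  refine Measure.pi_eq fun s hs => ?_
  rw [Measure.map_apply (by fun_prop) (MeasurableSet.univ_pi hs)]
  have h1 : (fun (g : κ → α) (j : κ') => g (e j)) ⁻¹' (Set.univ.pi s)
      = Set.univ.pi (Function.extend e s fun _ => Set.univ) := by
    ext g
    simp only [Set.mem_preimage, Set.mem_univ_pi]
    constructor
    · intro h i
      by_cases hi : ∃ j, e j = i
      · obtain ⟨j, rfl⟩ := hi
        rw [he.extend_apply]
        exact h j
      · rw [Function.extend_apply' _ _ _ hi]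
        trivial
    · intro h j
      have := h (e j)
      rwa [he.extend_apply] at this
  rw [h1, Measure.pi_pi]
  symm
  refine Fintype.prod_of_injective e he _ _ ?_ ?_
  · intro i hi
    rw [Function.extend_apply' _ _ _ (by simpa using hi)]
    simp
  · intro j
    rw [he.extend_apply]

/-- rescaled identity: the field direction of a pattern acting on the whole system -/
noncomputable def Dn (N : ℕ) : (Fin N → ℝ) → Fin N → ℝ := fun x i => x i / Real.sqrt N

lemma measurable_Dn (N : ℕ) : Measurable (Dn N) := by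
  unfold Dn
  fun_prop

/-- expected log partition function with `M` patterns and base measure `ρ` on `ℝ^N` -/
noncomputable def FE (U : ℝ → ℝ) {N : ℕ} (ρ : Measure (Fin N → ℝ)) (M : ℕ) : ℝ :=
  Phi U (fun _ : Fin M => Dn N) ρ

variable {U : ℝ → ℝ} {K : ℝ}

/-- the patterns of a given class acting on a block -/
lemma block_aux {N N₁ M : ℕ} (emb : Fin N₁ → Fin N)
    (hemb : Function.Injective emb) (ρ₁ : Measure (Fin N₁ → ℝ)) [IsFiniteMeasure ρ₁]
    (p : Fin M → Prop) [DecidablePred p] :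
    ∃ π : (Fin M → Fin N → ℝ) → (Fin (Finset.univ.filter p).card → Fin N₁ → ℝ),
      MeasurePreserving π (Measure.pi fun _ => gam (Fin N)) (Measure.pi fun _ => gam (Fin N₁)) ∧
      ∀ (U : ℝ → ℝ) (g : Fin M → Fin N → ℝ), (∫ x, ∏ a, (if p a then
        U (dotp (fun i => g a (emb i)) (Dn N₁ x)) else 1) ∂ρ₁)
      = Zf U (fun _ : Fin (Finset.univ.filter p).card => Dn N₁) ρ₁ (π g) := by
  set S := Finset.univ.filter p with hS
  set e : Fin S.card → Fin M := fun j => S.orderEmbOfFin rfl j with he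
  have hinj : Function.Injective e := (S.orderEmbOfFin rfl).injective
  have mp1 : MeasurePreserving (fun (g : Fin M → Fin N → ℝ) (j : Fin S.card) => g (e j))
      (Measure.pi fun _ => gam (Fin N)) (Measure.pi fun _ => gam (Fin N)) :=
    mp_comp_inj (gam (Fin N)) e hinj
  have mp2 : MeasurePreserving (fun (g : Fin S.card → Fin N → ℝ) (j : Fin S.card) (i : Fin N₁) =>
      g j (emb i)) (Measure.pi fun _ => gam (Fin N)) (Measure.pi fun _ => gam (Fin N₁)) :=
    measurePreserving_pi _ _ fun _ => mp_comp_inj (gaussianReal 0 1) emb hemb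
  have mp := mp2.comp mp1
  refine ⟨_, mp, ?_⟩
  intro U g
  unfold Zf
  refine integral_congr_ae ?_
  filter_upwards with x
  rw [← Finset.prod_filter]
  have h2 : S = Finset.univ.map (S.orderEmbOfFin rfl).toEmbedding := by
    ext a
    rw [Finset.mem_map]
    constructor
    · intro ha
      have : a ∈ Set.range (S.orderEmbOfFin rfl) := by
        rw [Finset.range_orderEmbOfFin]; exact ha
      obtain ⟨j, hj⟩ := this
      exact ⟨j, Finset.mem_univ _, hj⟩
    · rintro ⟨j, -, rfl⟩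
      exact Finset.orderEmbOfFin_mem S rfl j
  rw [← hS]
  conv_lhs => rw [h2]
  rw [Finset.prod_map]
  rfl

/-- field direction of a pattern acting on the first block -/
noncomputable def E₁ (N₁ N₂ : ℕ) : (Fin (N₁ + N₂) → ℝ) → Fin (N₁ + N₂) → ℝ := fun x =>
  Fin.addCases (fun i => x (Fin.castAdd N₂ i) / Real.sqrt N₁) (fun _ => 0)

/-- field direction of a pattern acting on the second block -/
noncomputable def E₂ (N₁ N₂ : ℕ) : (Fin (N₁ + N₂) → ℝ) → Fin (N₁ + N₂) → ℝ := fun x =>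
  Fin.addCases (fun _ => 0) (fun i => x (Fin.natAdd N₁ i) / Real.sqrt N₂)

lemma measurable_E₁ (N₁ N₂ : ℕ) : Measurable (E₁ N₁ N₂) := by
  refine measurable_pi_lambda _ fun i => ?_
  unfold E₁
  refine Fin.addCases (fun i => ?_) (fun i => ?_) i
  · simp only [Fin.addCases_left]
    fun_prop
  · simp only [Fin.addCases_right]
    fun_prop

lemma measurable_E₂ (N₁ N₂ : ℕ) : Measurable (E₂ N₁ N₂) := by
  refine measurable_pi_lambda _ fun i => ?_
  unfold E₂
  refine Fin.addCases (fun i => ?_) (fun i => ?_) i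
  · simp only [Fin.addCases_left]
    fun_prop
  · simp only [Fin.addCases_right]
    fun_prop

lemma dotp_E₁ (N₁ N₂ : ℕ) (g : Fin (N₁ + N₂) → ℝ) (x₁ : Fin N₁ → ℝ) (x₂ : Fin N₂ → ℝ) :
    dotp g (E₁ N₁ N₂ (Fin.append x₁ x₂)) = dotp (fun i => g (Fin.castAdd N₂ i)) (Dn N₁ x₁) := by
  unfold dotp E₁ Dn
  rw [Fin.sum_univ_add]
  simp

lemma dotp_E₂ (N₁ N₂ : ℕ) (g : Fin (N₁ + N₂) → ℝ) (x₁ : Fin N₁ → ℝ) (x₂ : Fin N₂ → ℝ) :
    dotp g (E₂ N₁ N₂ (Fin.append x₁ x₂)) = dotp (fun i => g (Fin.natAdd N₁ i)) (Dn N₂ x₂) := by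
  unfold dotp E₂ Dn
  rw [Fin.sum_univ_add]
  simp

lemma quad_split {N₁ N₂ : ℕ} (h₁ : 0 < N₁) (h₂ : 0 < N₂) (n : ℕ)
    (p : Fin n → ℝ × (Fin (N₁ + N₂) → ℝ)) :
    quad (Dn (N₁ + N₂)) p = ((N₁ : ℝ) / (N₁ + N₂ : ℕ)) * quad (E₁ N₁ N₂) p
      + ((N₂ : ℝ) / (N₁ + N₂ : ℕ)) * quad (E₂ N₁ N₂) p := by
  have hN₁ : (0 : ℝ) < N₁ := by exact_mod_cast h₁
  have hN₂ : (0 : ℝ) < N₂ := by exact_mod_cast h₂
  have hN : (0 : ℝ) < ((N₁ + N₂ : ℕ) : ℝ) := by push_cast; linarith
  unfold quad Dn E₁ E₂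
  rw [Fin.sum_univ_add, Fin.sum_univ_add, Fin.sum_univ_add]
  simp only [Fin.addCases_left, Fin.addCases_right, mul_zero, Finset.sum_const_zero]
  have key : ∀ (s : ℝ) (_ : 0 < s) (f : Fin n → ℝ), (∑ l, (p l).1 * (f l / Real.sqrt s)) ^ 2
      = (∑ l, (p l).1 * f l) ^ 2 / s := by
    intro s hs f
    have : ∑ l, (p l).1 * (f l / Real.sqrt s) = (∑ l, (p l).1 * f l) / Real.sqrt s := by
      rw [Finset.sum_div]
      refine Finset.sum_congr rfl fun l _ => ?_
      ring
    rw [this, div_pow, Real.sq_sqrt hs.le]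
  simp_rw [key _ hN, key _ hN₁, key _ hN₂]
  simp only [ne_eq, OfNat.ofNat_ne_zero, not_false_eq_true, zero_pow, Finset.sum_const_zero,
    add_zero, zero_add]
  rw [← Finset.sum_div, ← Finset.sum_div, ← Finset.sum_div, ← Finset.sum_div]
  field_simp

lemma two_block (ν : Measure ℝ) [IsFiniteMeasure ν] (hν : ν.real Set.univ < 1)
    (θ : ℝ → ℝ) (hθ : ∀ h, charFun ν h = ((θ h : ℝ) : ℂ)) (c : ℝ) (hc : 0 < c)
    (hUθ : ∀ h, U h = c * (1 - θ h)) (hU : Nice U K)
    {N₁ N₂ : ℕ} (h₁ : 0 < N₁) (h₂ : 0 < N₂)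
    (ρ₁ : Measure (Fin N₁ → ℝ)) [IsFiniteMeasure ρ₁] (hρ₁ : 0 < ρ₁.real Set.univ)
    (ρ₂ : Measure (Fin N₂ → ℝ)) [IsFiniteMeasure ρ₂] (hρ₂ : 0 < ρ₂.real Set.univ)
    (ρ : Measure (Fin (N₁ + N₂) → ℝ)) [IsFiniteMeasure ρ]
    (hle : (ρ₁.prod ρ₂).map (fun p => Fin.append p.1 p.2) ≤ ρ) (M : ℕ) :
    ∑ τ : Fin M → Bool, (∏ a, (if τ a then (N₁ : ℝ) / (N₁ + N₂ : ℕ) else (N₂ : ℝ) / (N₁ + N₂ : ℕ)))
      * (FE U ρ₁ (Finset.univ.filter fun a => τ a = true).card
        + FE U ρ₂ (Finset.univ.filter fun a => ¬ τ a = true).card) ≤ FE U ρ M := by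
  classical
  have hN₁ : (0 : ℝ) < N₁ := by exact_mod_cast h₁
  have hN₂ : (0 : ℝ) < N₂ := by exact_mod_cast h₂
  have hN : (0 : ℝ) < ((N₁ + N₂ : ℕ) : ℝ) := by push_cast; linarith
  have happ : Measurable (fun p : (Fin N₁ → ℝ) × (Fin N₂ → ℝ) => Fin.append p.1 p.2) := by
    refine measurable_pi_lambda _ fun i => ?_
    refine Fin.addCases (fun i => ?_) (fun i => ?_) i
    · simp only [Fin.append_left]
      fun_prop
    · simp only [Fin.append_right]
      fun_prop
  set G' := (ρ₁.prod ρ₂).map (fun p => Fin.append p.1 p.2) with hG'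
  have hG'real : G'.real Set.univ = ρ₁.real Set.univ * ρ₂.real Set.univ := by
    rw [measureReal_def, hG', Measure.map_apply happ MeasurableSet.univ, Set.preimage_univ,
      ← Set.univ_prod_univ, Measure.prod_prod, ENNReal.toReal_mul]
    rfl
  have hG'pos : 0 < G'.real Set.univ := by rw [hG'real]; positivity
  have hρpos : 0 < ρ.real Set.univ :=
    lt_of_lt_of_le hG'pos (ENNReal.toReal_mono (measure_ne_top _ _) (hle Set.univ))
  set E : Bool → (Fin (N₁ + N₂) → ℝ) → Fin (N₁ + N₂) → ℝ :=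
    fun b => if b then E₁ N₁ N₂ else E₂ N₁ N₂ with hE
  have hEm : ∀ b, Measurable (E b) := by
    intro b
    cases b
    · simpa [hE] using measurable_E₂ N₁ N₂
    · simpa [hE] using measurable_E₁ N₁ N₂
  set w : Bool → ℝ := fun b => if b then (N₁ : ℝ) / (N₁ + N₂ : ℕ) else (N₂ : ℝ) / (N₁ + N₂ : ℕ)
    with hw
  have hw0 : ∀ b, 0 ≤ w b := by
    intro b
    cases b <;> simp only [hw] <;> positivity
  have hw1 : ∑ b, w b = 1 := by
    simp only [hw, Fintype.sum_bool, if_true, Bool.false_eq_true, if_false]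
    field_simp
    push_cast
    ring
  have main := Phi_interp ν hν θ hθ c hc hUθ hU ρ hρpos w hw0 hw1 (measurable_Dn (N₁ + N₂)) hEm
    (fun n p => by
      rw [quad_split h₁ h₂ n p]
      simp [hw, hE]) M
  refine le_trans ?_ main
  refine Finset.sum_le_sum fun τ _ => ?_
  refine mul_le_mul_of_nonneg_left ?_ (Finset.prod_nonneg fun a _ => hw0 _)
  -- compare with the product measure
  have hEτ : ∀ a, Measurable (E (τ a)) := fun a => hEm _
  have hstep : Phi U (fun a => E (τ a)) G' ≤ Phi U (fun a => E (τ a)) ρ := by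
    unfold Phi
    refine integral_mono (integrable_log_Zf hU hEτ G' hG'pos _)
      (integrable_log_Zf hU hEτ ρ hρpos _) fun g => ?_
    refine Real.log_le_log (Zf_pos hU hEτ G' hG'pos g) ?_
    unfold Zf
    refine integral_mono_measure hle ?_ (integrable_prod_right hU hEτ ρ g)
    filter_upwards with x
    exact (lt_of_lt_of_le (Real.exp_pos _) (prod_bounds hU (fun a => E (τ a)) g x).1).le
  refine le_trans ?_ hstep
  obtain ⟨π₁, hπ₁, hZ₁⟩ := block_aux (N := N₁ + N₂) (Fin.castAdd N₂)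
    (Fin.castAdd_injective N₁ N₂) ρ₁ (fun a : Fin M => τ a = true)
  obtain ⟨π₂, hπ₂, hZ₂⟩ := block_aux (N := N₁ + N₂) (Fin.natAdd N₁)
    (Fin.natAdd_injective N₂ N₁) ρ₂ (fun a : Fin M => ¬ τ a = true)
  have hZ : ∀ g, Zf U (fun a => E (τ a)) G' g
      = Zf U (fun _ => Dn N₁) ρ₁ (π₁ g) * Zf U (fun _ => Dn N₂) ρ₂ (π₂ g) := by
    intro g
    rw [← hZ₁ U g, ← hZ₂ U g, ← integral_prod_mul]
    unfold Zf
    rw [hG', integral_map happ.aemeasurable
      (measurable_prod_right hU hEτ g).aestronglyMeasurable]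
    refine integral_congr_ae ?_
    filter_upwards with q
    rw [← Finset.prod_mul_distrib]
    refine Finset.prod_congr rfl fun a _ => ?_
    cases h : τ a
    · simp only [hE, Bool.false_eq_true, if_false, not_false_eq_true, if_true, one_mul]
      rw [dotp_E₂]
    · simp only [hE, if_true, not_true_eq_false, if_false, mul_one]
      rw [dotp_E₁]
  have hI₁ : Integrable (fun g => Real.log (Zf U (fun _ => Dn N₁) ρ₁ (π₁ g)))
      (Measure.pi fun _ => gam (Fin (N₁ + N₂))) := by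
    have := integrable_log_Zf hU (fun _ => measurable_Dn N₁) ρ₁ hρ₁
      (Measure.pi fun _ : Fin (Finset.univ.filter fun a => τ a = true).card => gam (Fin N₁))
    exact hπ₁.integrable_comp_of_integrable this
  have hI₂ : Integrable (fun g => Real.log (Zf U (fun _ => Dn N₂) ρ₂ (π₂ g)))
      (Measure.pi fun _ => gam (Fin (N₁ + N₂))) := by
    have := integrable_log_Zf hU (fun _ => measurable_Dn N₂) ρ₂ hρ₂
      (Measure.pi fun _ : Fin (Finset.univ.filter fun a => ¬ τ a = true).card => gam (Fin N₂))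
    exact hπ₂.integrable_comp_of_integrable this
  have hlog : ∀ g, Real.log (Zf U (fun a => E (τ a)) G' g)
      = Real.log (Zf U (fun _ => Dn N₁) ρ₁ (π₁ g))
        + Real.log (Zf U (fun _ => Dn N₂) ρ₂ (π₂ g)) := by
    intro g
    rw [hZ g, Real.log_mul]
    · exact (Zf_pos hU (fun _ => measurable_Dn N₁) ρ₁ hρ₁ _).ne'
    · exact (Zf_pos hU (fun _ => measurable_Dn N₂) ρ₂ hρ₂ _).ne'
  refine le_of_eq ?_
  unfold FE
  conv_rhs => unfold Phi
  simp_rw [hlog]
  rw [integral_add hI₁ hI₂]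
  congr 1
  · unfold Phi
    rw [← hπ₁.map_eq, integral_map hπ₁.measurable.aemeasurable]
    exact (Real.measurable_log.comp
      (measurable_Zf hU (fun _ => measurable_Dn N₁) ρ₁)).aestronglyMeasurable
  · unfold Phi
    rw [← hπ₂.map_eq, integral_map hπ₂.measurable.aemeasurable]
    exact (Real.measurable_log.comp
      (measurable_Zf hU (fun _ => measurable_Dn N₂) ρ₂)).aestronglyMeasurable

end Vale.Agent.P157
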