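import Mathlib

/-!
# Definitions used in the statements for P157
-/

open MeasureTheory ProbabilityTheory
open scoped NNReal ENNReal

namespace Vale.Agent.P157

/-- The law of `M` independent standard Gaussian vectors in `ℝ^N`. -/
noncomputable def patternLaw (M N : ℕ) : Measure (Fin M → Fin N → ℝ) :=
  Measure.pi fun _ => Measure.pi fun _ => gaussianReal 0 1

/-- The uniform probability measure on the Ising cube `{-1, 1}^N`. -/
noncomputable def isingMeasure (N : ℕ) : Measure (Fin N → ℝ) :=
  Measure.pi fun _ => (2⁻¹ : ℝ≥0∞) • (Measure.dirac (-1) + Measure.dirac 1)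

/-- The normalized surface measure on the sphere `‖x‖² = N` of `ℝ^N`: the normalized surface
measure of the Euclidean unit sphere, pushed forward under `u ↦ √N • u`. -/
noncomputable def sphereMeasure (N : ℕ) : Measure (Fin N → ℝ) :=
  (((volume : Measure (EuclideanSpace ℝ (Fin N))).toSphere Set.univ)⁻¹ •
    (volume : Measure (EuclideanSpace ℝ (Fin N))).toSphere).map
      fun (u : Metric.sphere (0 : EuclideanSpace ℝ (Fin N)) 1) (i : Fin N) =>
        Real.sqrt N * (u : EuclideanSpace ℝ (Fin N)) i

/-- The pressure `p_N(f)` of the perceptron with `M` patterns `g`, log-potential `f` and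
configuration measure `μ` on `ℝ^N`. -/
noncomputable def pressure {N : ℕ} (μ : Measure (Fin N → ℝ)) (f : ℝ → ℝ) {M : ℕ}
    (g : Fin M → Fin N → ℝ) : ℝ :=
  (1 / N) * Real.log (∫ x, Real.exp (∑ a, f ((∑ i, g a i * x i) / Real.sqrt N)) ∂μ)

/-- The expected pressure `E p_N(f)` with `M = ⌊α N⌋` independent standard Gaussian patterns. -/
noncomputable def meanPressure (μ : ∀ N : ℕ, Measure (Fin N → ℝ)) (f : ℝ → ℝ) (α : ℝ) (N : ℕ) : ℝ :=
  ∫ g, pressure (μ N) f g ∂(patternLaw ⌊α * N⌋₊ N)

end Vale.Agent.P157
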