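import Vale.Agent.Lib.P157.Polar

/-!
# Existence of the limiting free energy on the cube and on the sphere
-/

open MeasureTheory ProbabilityTheory Filter Topology
open scoped NNReal ENNReal

namespace Vale.Agent.P157

lemma law_dotp {ι : Type*} [Fintype ι] (y : ι → ℝ) (hy : ∑ j, y j ^ 2 = 1) :
    (gam ι).map (fun g => dotp g y) = gaussianReal 0 1 := by
  have hm : Measurable fun g : ι → ℝ => dotp g y := by
    unfold dotp
    fun_prop
  have : IsProbabilityMeasure ((gam ι).map (fun g => dotp g y)) :=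
    Measure.isProbabilityMeasure_map hm.aemeasurable
  refine Measure.ext_of_charFun ?_
  funext t
  rw [charFun_apply_real, charFun_gaussianReal, integral_map hm.aemeasurable]
  · have h := gauss_char (fun j => t * y j)
    have e1 : ∀ g : ι → ℝ, Complex.exp ((t : ℂ) * ((dotp g y : ℝ) : ℂ) * Complex.I)
        = Complex.exp (((∑ j, g j * (t * y j) : ℝ) : ℂ) * Complex.I) := by
      intro g
      congr 2
      unfold dotp
      rw [← Complex.ofReal_mul, Finset.mul_sum]
      congr 1
      refine Finset.sum_congr rfl fun j _ => ?_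
      ring
    simp_rw [e1]
    rw [h]
    have e2 : ∑ j, (t * y j) ^ 2 = t ^ 2 := by
      simp_rw [mul_pow]
      rw [← Finset.mul_sum, hy, mul_one]
    rw [e2]
    push_cast
    congr 1
    simp
    ring
  · have : Measurable fun x : ℝ => Complex.exp ((t : ℂ) * (x : ℂ) * Complex.I) := by fun_prop
    exact this.aestronglyMeasurable

variable {U : ℝ → ℝ} {K : ℝ}

/-- mean modulus of continuity of the weight under dilation -/
lemma dilation_small (hU : Nice U K) (hc : Continuous U) {ε : ℝ} (hε : 0 < ε) :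
    ∃ η > 0, ∀ t : ℝ, |t - 1| < η → ∫ z, |U (t * z) - U z| ∂(gaussianReal 0 1) ≤ ε := by
  have h : Tendsto (fun t : ℝ => ∫ z, |U (t * z) - U z| ∂(gaussianReal 0 1)) (𝓝 1)
      (𝓝 (∫ _z, (0 : ℝ) ∂(gaussianReal 0 1))) := by
    refine tendsto_integral_filter_of_dominated_convergence (fun _ => 2 * Real.exp K) ?_ ?_ ?_ ?_
    · filter_upwards with t
      have : Continuous fun z => |U (t * z) - U z| := by fun_prop
      exact this.aestronglyMeasurable
    · filter_upwards with t
      filter_upwards with z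
      rw [Real.norm_eq_abs, abs_abs, abs_le]
      have a1 := hU.pos (t * z)
      have a2 := hU.pos z
      have a3 := hU.upper (t * z)
      have a4 := hU.upper z
      constructor <;> linarith
    · exact integrable_const _
    · filter_upwards with z
      have h1 : Continuous fun t : ℝ => |U (t * z) - U z| := by fun_prop
      have h2 := h1.tendsto 1
      simpa using h2
  rw [integral_zero] at h
  have h2 := (Metric.tendsto_nhds.1 h) ε hε
  rw [Metric.eventually_nhds_iff] at h2
  obtain ⟨η, hη, h3⟩ := h2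
  refine ⟨η, hη, fun t ht => ?_⟩
  have := h3 (y := t) (by rw [Real.dist_eq]; exact ht)
  rw [Real.dist_eq, sub_zero] at this
  exact (le_abs_self _).trans this.le

lemma shell_direction (hU : Nice U K) (hc : Continuous U) {ε : ℝ} (hε : 0 < ε) :
    ∃ δ : ℝ, 0 < δ ∧ δ < 1 ∧ ∀ N : ℕ, 0 < N → ∀ x ∈ shell δ N,
      ∫ g, |U (dotp g (Dn N x)) - U (dotp g (Drad N x))| ∂(gam (Fin N)) ≤ ε := by
  obtain ⟨η, hη, h⟩ := dilation_small hU hc hε
  refine ⟨min (η / 2) (1 / 2), by positivity, lt_of_le_of_lt (min_le_right _ _) (by norm_num), ?_⟩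
  intro N hN x hx
  have hN' : (0 : ℝ) < N := by exact_mod_cast hN
  set δ := min (η / 2) (1 / 2) with hδ
  have hδ1 : δ ≤ η / 2 := min_le_left _ _
  have hδ2 : δ ≤ 1 / 2 := min_le_right _ _
  set S := ∑ j, x j ^ 2 with hS
  have hS1 : (1 - δ) * N ≤ S := hx.1
  have hS2 : S ≤ (1 + δ) * N := hx.2
  have hS0 : 0 < S := lt_of_lt_of_le (by nlinarith) hS1
  set t := Real.sqrt S / Real.sqrt N with ht
  have hsN := Real.sqrt_pos.2 hN'
  have hsS := Real.sqrt_pos.2 hS0
  have hunit : ∑ j, (Drad N x j) ^ 2 = 1 := by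
    unfold Drad
    simp_rw [div_pow]
    rw [← Finset.sum_div, Real.sq_sqrt hS0.le, ← hS, div_self hS0.ne']
  have hrel : ∀ g : Fin N → ℝ, dotp g (Dn N x) = t * dotp g (Drad N x) := by
    intro g
    unfold dotp Dn Drad
    rw [Finset.mul_sum]
    refine Finset.sum_congr rfl fun j _ => ?_
    rw [← hS, ht]
    field_simp
  have ht1 : |t - 1| < η := by
    have h1 : t ^ 2 = S / N := by
      rw [ht, div_pow, Real.sq_sqrt hS0.le, Real.sq_sqrt hN'.le]
    have ht0 : 0 ≤ t := by positivity
    have h2 : |t ^ 2 - 1| ≤ δ := by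
      rw [h1, abs_le]
      constructor
      · have : 1 - δ ≤ S / N := by rwa [le_div_iff₀ hN']
        linarith
      · have : S / N ≤ 1 + δ := by rwa [div_le_iff₀ hN']
        linarith
    have h3 : |t - 1| ≤ |t ^ 2 - 1| := by
      have : t ^ 2 - 1 = (t - 1) * (t + 1) := by ring
      rw [this, abs_mul]
      have h4 : 1 ≤ |t + 1| := by rw [abs_of_nonneg (by linarith)]; linarith
      nlinarith [abs_nonneg (t - 1)]
    calc |t - 1| ≤ δ := h3.trans h2
      _ ≤ η / 2 := hδ1
      _ < η := by linarith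
  have hm : Measurable fun g : Fin N → ℝ => dotp g (Drad N x) := by
    unfold dotp
    fun_prop
  have e1 : ∫ g, |U (dotp g (Dn N x)) - U (dotp g (Drad N x))| ∂(gam (Fin N))
      = ∫ z, |U (t * z) - U z| ∂(gaussianReal 0 1) := by
    rw [← law_dotp (Drad N x) hunit, integral_map hm.aemeasurable]
    · refine integral_congr_ae ?_
      filter_upwards with g
      rw [hrel g]
    · have : Continuous fun z => |U (t * z) - U z| := by fun_prop
      exact this.aestronglyMeasurable
  rw [e1]
  exact h t ht1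

/-- comparison of the sphere with a thin shell -/
lemma sphere_near_shell (hU : Nice U K) {ε δ : ℝ} (hδ0 : 0 < δ) (hδ1 : δ < 1)
    (hdir : ∀ N : ℕ, 0 < N → ∀ x ∈ shell δ N,
      ∫ g, |U (dotp g (Dn N x)) - U (dotp g (Drad N x))| ∂(gam (Fin N)) ≤ ε)
    {N : ℕ} (hN : 0 < N) (M : ℕ) :
    |FE U (shellPrior δ N) M - (Real.log (volume.real (shell δ N)) + FE U (sphereMeasure N) M)|
      ≤ M * (Real.exp K * ε) := by
  have hP := shellPrior_isPrior hδ0
  have := hP.fin N
  have hpos := hP.pos N hN
  have hsw := Phi_switch_all hU (shellPrior δ N) hpos M (Dn N) (measurable_Dn N) (Drad N)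
    (measurable_Drad N) ε (by
      unfold shellPrior
      filter_upwards [ae_restrict_mem (measurableSet_shell δ N)] with x hx
      exact hdir N hN x hx)
  have hvol : 0 < volume.real (shell δ N) :=
    ENNReal.toReal_pos (shell_volume_pos hδ0 hN).ne' (shell_volume_lt_top δ N).ne
  have hfin : IsFiniteMeasure (sphereMeasure N) := by
    unfold sphereMeasure
    have : IsFiniteMeasure (((sig N) Set.univ)⁻¹ • (sig N)) := by
      refine ⟨?_⟩
      rw [Measure.smul_apply, smul_eq_mul]
      exact ENNReal.mul_lt_top (ENNReal.inv_lt_top.2 (pos_iff_ne_zero.2 (sig_pos hN)))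
        (measure_lt_top _ _)
    infer_instance
  have hmass : (sphereMeasure N).real Set.univ = 1 := by
    have := polar_shell hδ1 hN (fun _ => (1 : ℝ)) measurable_const
    simp only [integral_const, MeasurableSet.univ, measureReal_restrict_apply, Set.univ_inter,
      smul_eq_mul, mul_one] at this
    have h2 : volume.real (shell δ N) * 1 = volume.real (shell δ N) * (sphereMeasure N).real Set.univ := by
      rw [mul_one]; exact this
    exact (mul_left_cancel₀ hvol.ne' h2).symm
  have heq : Phi U (fun _ : Fin M => Drad N) (shellPrior δ N)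
      = Real.log (volume.real (shell δ N)) + FE U (sphereMeasure N) M := by
    unfold FE Phi
    have hi := integrable_log_Zf hU (fun _ : Fin M => measurable_Dn N) (sphereMeasure N)
      (by rw [hmass]; norm_num) (Measure.pi fun _ => gam (Fin N))
    have e1 : ∀ g : Fin M → Fin N → ℝ, Real.log (Zf U (fun _ : Fin M => Drad N) (shellPrior δ N) g)
        = Real.log (volume.real (shell δ N))
          + Real.log (Zf U (fun _ : Fin M => Dn N) (sphereMeasure N) g) := by
      intro g
      have hz := Zf_pos hU (fun _ : Fin M => measurable_Dn N) (sphereMeasure N)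
        (by rw [hmass]; norm_num) g
      rw [← Real.log_mul hvol.ne' hz.ne']
      congr 1
      unfold Zf shellPrior
      have hΨ : Measurable fun y : Fin N → ℝ => ∏ a, U (dotp (g a) y) := by
        refine Finset.measurable_prod _ fun a _ => hU.meas.comp ?_
        unfold dotp
        fun_prop
      exact polar_shell hδ1 hN (fun y => ∏ a, U (dotp (g a) y)) hΨ
    simp_rw [e1]
    rw [integral_add (integrable_const _) hi]
    simp
  rw [heq] at hsw
  exact hsw

lemma exists_limit_of_near {s : ℕ → ℝ}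
    (h : ∀ ε > 0, ∃ t : ℕ → ℝ, (∃ L, Tendsto t atTop (𝓝 L)) ∧ ∀ᶠ n in atTop, |s n - t n| ≤ ε) :
    ∃ L, Tendsto s atTop (𝓝 L) := by
  have hc : CauchySeq s := by
    rw [Metric.cauchySeq_iff]
    intro ε hε
    obtain ⟨t, ⟨L, hL⟩, hst⟩ := h (ε / 4) (by linarith)
    have ht := hL.cauchySeq
    rw [Metric.cauchySeq_iff] at ht
    obtain ⟨N₁, hN₁⟩ := ht (ε / 4) (by linarith)
    obtain ⟨N₂, hN₂⟩ := eventually_atTop.1 hst
    refine ⟨max N₁ N₂, fun m hm n hn => ?_⟩
    have h1 := hN₁ m (le_of_max_le_left hm) n (le_of_max_le_left hn)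
    have h2 := hN₂ m (le_of_max_le_right hm)
    have h3 := hN₂ n (le_of_max_le_right hn)
    rw [Real.dist_eq] at h1 ⊢
    rw [abs_le] at h2 h3
    rw [abs_lt] at h1 ⊢
    constructor <;> linarith [h1.1, h1.2, h2.1, h2.2, h3.1, h3.2]
  exact cauchySeq_tendsto_of_complete hc

theorem sphere_limit (ν : Measure ℝ) [IsFiniteMeasure ν] (hν : ν.real Set.univ < 1)
    (θ : ℝ → ℝ) (hθ : ∀ h, charFun ν h = ((θ h : ℝ) : ℂ)) (c : ℝ) (hc : 0 < c)
    (hUθ : ∀ h, U h = c * (1 - θ h)) (hU : Nice U K) {α : ℝ} (hα : 0 < α) :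
    ∃ L, Tendsto (fun N : ℕ => FE U (sphereMeasure N) ⌊α * N⌋₊ / N) atTop (𝓝 L) := by
  have hcont : Continuous U := by
    have h1 : Continuous (charFun ν) := continuous_charFun
    have h2 : U = fun h => c * (1 - (charFun ν h).re) := by
      funext h
      rw [hUθ h, hθ h, Complex.ofReal_re]
    rw [h2]
    exact continuous_const.mul (continuous_const.sub (Complex.continuous_re.comp h1))
  refine exists_limit_of_near fun ε hε => ?_
  have hK := hU.K_nonneg
  set ε' := ε / (α * Real.exp K) with hε'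
  have hε'0 : 0 < ε' := by positivity
  obtain ⟨δ, hδ0, hδ1, hdir⟩ := shell_direction hU hcont hε'0
  have hP := shellPrior_isPrior hδ0
  obtain ⟨L₁, hL₁⟩ := prior_limit ν hν θ hθ c hc hUθ hU (shellPrior δ) hP hα
  -- the volume term: apply the result with the trivial weight
  have hU1 : Nice (fun _ => (1 : ℝ)) 0 := ⟨measurable_const, fun _ => by simp, fun _ => by simp⟩
  obtain ⟨L₂, hL₂⟩ := prior_limit (U := fun _ => (1 : ℝ)) (0 : Measure ℝ) (by simp) (fun _ => 0)
    (fun h => by simp) 1 one_pos (fun _ => by simp) hU1 (shellPrior δ) hP hα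
  have hvolFE : ∀ N M : ℕ, FE (fun _ => (1 : ℝ)) (shellPrior δ N) M
      = Real.log (volume.real (shell δ N)) := by
    intro N M
    unfold FE Phi Zf shellPrior
    simp
  refine ⟨fun N => FE U (shellPrior δ N) ⌊α * N⌋₊ / N - FE (fun _ => (1 : ℝ)) (shellPrior δ N) ⌊α * N⌋₊ / N,
    ⟨L₁ - L₂, hL₁.sub hL₂⟩, ?_⟩
  filter_upwards [eventually_gt_atTop 0] with N hN
  have hN' : (0 : ℝ) < N := by exact_mod_cast hN
  have h1 := sphere_near_shell hU hδ0 hδ1 hdir hN ⌊α * N⌋₊
  rw [hvolFE]
  have e : FE U (sphereMeasure N) ⌊α * N⌋₊ / N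
      - (FE U (shellPrior δ N) ⌊α * N⌋₊ / N - Real.log (volume.real (shell δ N)) / N)
      = -((FE U (shellPrior δ N) ⌊α * N⌋₊
          - (Real.log (volume.real (shell δ N)) + FE U (sphereMeasure N) ⌊α * N⌋₊)) / N) := by
    field_simp
    ring
  rw [e, abs_neg, abs_div, abs_of_pos hN', div_le_iff₀ hN']
  refine h1.trans ?_
  have hfl : (⌊α * N⌋₊ : ℝ) ≤ α * N := Nat.floor_le (by positivity)
  calc (⌊α * N⌋₊ : ℝ) * (Real.exp K * ε') ≤ (α * N) * (Real.exp K * ε') :=
        mul_le_mul_of_nonneg_right hfl (by positivity)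
    _ = ε * N := by rw [hε']; field_simp

/-- the Ising prior -/
lemma ising_isPrior : Prior isingMeasure := by
  have hp : IsProbabilityMeasure ((2⁻¹ : ℝ≥0∞) • (Measure.dirac (-1 : ℝ) + Measure.dirac 1)) := by
    refine ⟨?_⟩
    rw [Measure.smul_apply, Measure.add_apply, measure_univ, measure_univ, smul_eq_mul,
      one_add_one_eq_two]
    exact ENNReal.inv_mul_cancel (by norm_num) (by norm_num)
  have hprob : ∀ N, IsProbabilityMeasure (isingMeasure N) := by
    intro N
    unfold isingMeasure
    infer_instance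
  refine ⟨fun N => ?_, fun N _ => ?_, fun N₁ N₂ _ _ => ?_, ⟨0, fun N _ => ?_⟩⟩
  · have := hprob N
    infer_instance
  · have := hprob N
    rw [measureReal_def, measure_univ]
    norm_num
  · unfold isingMeasure
    rw [map_append_pi]
  · have := hprob N
    rw [measureReal_def, measure_univ]
    simp

lemma meanPressure_eq (μ : ∀ N : ℕ, Measure (Fin N → ℝ)) (f : ℝ → ℝ) (α : ℝ) (N : ℕ) :
    meanPressure μ f α N = FE (fun h => Real.exp (f h)) (μ N) ⌊α * N⌋₊ / N := by
  unfold meanPressure pressure patternLaw FE Phi Zf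
  rw [integral_const_mul, one_div, inv_mul_eq_div]
  congr 1
  refine integral_congr_ae ?_
  filter_upwards with g
  congr 1
  refine integral_congr_ae ?_
  filter_upwards with x
  rw [Real.exp_sum]
  refine Finset.prod_congr rfl fun a _ => ?_
  congr 2
  unfold dotp Dn
  rw [Finset.sum_div]
  refine Finset.sum_congr rfl fun i _ => ?_
  ring

/-- symmetrization of the spectral measure -/
lemma symmetrize (ν : Measure ℝ) [IsFiniteMeasure ν] :
    ∃ ν' : Measure ℝ, IsFiniteMeasure ν' ∧ ν'.real Set.univ = ν.real Set.univ ∧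
      ∀ h, charFun ν' h = ((∫ s, Real.cos (s * h) ∂ν : ℝ) : ℂ) := by
  set νn := ν.map (fun s => -s) with hνn
  have hfin : IsFiniteMeasure νn := by rw [hνn]; infer_instance
  refine ⟨(2⁻¹ : ℝ≥0) • (ν + νn), inferInstance, ?_, ?_⟩
  · have h1 : νn.real Set.univ = ν.real Set.univ := by
      rw [measureReal_def, hνn, Measure.map_apply measurable_neg MeasurableSet.univ,
        Set.preimage_univ]
      rfl
    rw [measureReal_nnreal_smul_apply, measureReal_add_apply, h1]
    simp
    ring
  · intro h
    have hi : ∀ (μ : Measure ℝ) [IsFiniteMeasure μ],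
        Integrable (fun x : ℝ => Complex.exp ((h : ℂ) * (x : ℂ) * Complex.I)) μ := by
      intro μ _
      refine Integrable.of_bound (by fun_prop) 1 ?_
      filter_upwards with x
      rw [← Complex.ofReal_mul, Complex.norm_exp_ofReal_mul_I]
    rw [charFun_apply_real, integral_smul_nnreal_measure, integral_add_measure (hi ν) (hi νn)]
    have h2 : ∫ x, Complex.exp ((h : ℂ) * (x : ℂ) * Complex.I) ∂νn
        = ∫ x, Complex.exp ((h : ℂ) * ((-x : ℝ) : ℂ) * Complex.I) ∂ν := by
      rw [hνn, integral_map measurable_neg.aemeasurable (by fun_prop)]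
    have hi' : Integrable (fun x : ℝ => Complex.exp ((h : ℂ) * ((-x : ℝ) : ℂ) * Complex.I)) ν := by
      refine Integrable.of_bound (by fun_prop) 1 ?_
      filter_upwards with x
      rw [← Complex.ofReal_mul, Complex.norm_exp_ofReal_mul_I]
    rw [h2, ← integral_add (hi ν) hi', ← integral_complex_ofReal]
    have h3 : ∀ x : ℝ, Complex.exp ((h : ℂ) * (x : ℂ) * Complex.I)
        + Complex.exp ((h : ℂ) * ((-x : ℝ) : ℂ) * Complex.I) = 2 * ((Real.cos (x * h) : ℝ) : ℂ) := by
      intro x
      rw [Complex.ofReal_cos, Complex.cos]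
      push_cast
      have a1 : (h : ℂ) * (x : ℂ) * Complex.I = (x : ℂ) * (h : ℂ) * Complex.I := by ring
      have a2 : (h : ℂ) * (-(x : ℂ)) * Complex.I = -((x : ℂ) * (h : ℂ)) * Complex.I := by ring
      rw [a1, a2]
      ring
    simp_rw [h3]
    rw [integral_const_mul, NNReal.smul_def]
    simp

theorem main (ν : Measure ℝ) [IsFiniteMeasure ν] (hν : ν Set.univ < 1) (c : ℝ) (hc : 0 < c)
    (f : ℝ → ℝ) (hf : ∀ h, Real.exp (f h) = c * (1 - ∫ s, Real.cos (s * h) ∂ν))
    (α : ℝ) (hα : 0 < α) :
    (∃ L, Tendsto (meanPressure isingMeasure f α) atTop (𝓝 L)) ∧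
      (∃ L, Tendsto (meanPressure sphereMeasure f α) atTop (𝓝 L)) := by
  obtain ⟨ν', hν'fin, hν'mass, hν'char⟩ := symmetrize ν
  have hm : ν'.real Set.univ < 1 := by
    rw [hν'mass, measureReal_def]
    have := (ENNReal.toReal_lt_toReal (measure_ne_top ν _) ENNReal.one_ne_top).2 hν
    simpa using this
  set m := ν'.real Set.univ with hmdef
  have hm0 : 0 ≤ m := measureReal_nonneg
  set θ : ℝ → ℝ := fun h => ∫ s, Real.cos (s * h) ∂ν with hθ
  have hθb := abs_theta_le ν' θ hν'char
  have hθm := measurable_theta ν' θ hν'char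
  set U : ℝ → ℝ := fun h => Real.exp (f h) with hUdef
  have hUθ : ∀ h, U h = c * (1 - θ h) := hf
  obtain ⟨K, hK⟩ : ∃ K, Nice U K := by
    refine ⟨max (-Real.log (c * (1 - m))) (Real.log (c * (1 + m))), ?_, ?_, ?_⟩
    · have : U = fun h => c * (1 - θ h) := funext hUθ
      rw [this]
      exact measurable_const.mul (measurable_const.sub hθm)
    · intro h
      have h1 := abs_le.1 (hθb h)
      calc Real.exp (-(max (-Real.log (c * (1 - m))) (Real.log (c * (1 + m)))))
          ≤ Real.exp (Real.log (c * (1 - m))) := by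
            rw [Real.exp_le_exp]
            have := le_max_left (-Real.log (c * (1 - m))) (Real.log (c * (1 + m)))
            linarith
        _ = c * (1 - m) := Real.exp_log (mul_pos hc (by linarith))
        _ ≤ U h := by
            rw [hUθ h]
            exact mul_le_mul_of_nonneg_left (by linarith) hc.le
    · intro h
      have h1 := abs_le.1 (hθb h)
      calc U h ≤ c * (1 + m) := by
            rw [hUθ h]
            exact mul_le_mul_of_nonneg_left (by linarith) hc.le
        _ = Real.exp (Real.log (c * (1 + m))) := (Real.exp_log (mul_pos hc (by linarith))).symm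
        _ ≤ _ := by
            rw [Real.exp_le_exp]
            exact le_max_right _ _
  have e : ∀ μ : ∀ N : ℕ, Measure (Fin N → ℝ), meanPressure μ f α
      = fun N : ℕ => FE U (μ N) ⌊α * N⌋₊ / N := fun μ => funext fun N => meanPressure_eq μ f α N
  rw [e, e]
  exact ⟨prior_limit ν' hm θ hν'char c hc hUθ hK isingMeasure ising_isPrior hα,
    sphere_limit ν' hm θ hν'char c hc hUθ hK hα⟩

end Vale.Agent.P157
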