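import Vale.Agent.Lib.P157.OneStep

/-!
# Discrete interpolation between pattern types
-/

open MeasureTheory ProbabilityTheory
open scoped NNReal ENNReal

namespace Vale.Agent.P157

section Hybrid

lemma hybrid {κ : Type*} [Fintype κ] (w : κ → ℝ) (hw : ∀ b, 0 ≤ w b) :
    ∀ (M : ℕ) (Φ : (Fin M → Option κ) → ℝ),
      (∀ (τ : Fin M → Option κ) (a : Fin M), τ a = none →
        ∑ b, w b * Φ (Function.update τ a (some b)) ≤ Φ τ) →
      ∑ τ : Fin M → κ, (∏ a, w (τ a)) * Φ (fun a => some (τ a)) ≤ Φ (fun _ => none) := by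
  intro M
  induction M with
  | zero =>
    intro Φ _
    rw [Fintype.sum_eq_single (fun a : Fin 0 => a.elim0)]
    · simp only [Finset.univ_eq_empty, Finset.prod_empty, one_mul]
      refine le_of_eq (congrArg Φ ?_)
      funext a
      exact a.elim0
    · intro τ hτ
      exact absurd (funext fun a => a.elim0) hτ
  | succ M ih =>
    intro Φ hΦ
    have e0 : (fun _ : Fin (M + 1) => (none : Option κ)) = Fin.cons none (fun _ => none) := by
      funext a
      refine Fin.cases rfl (fun i => ?_) a
      simp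
    rw [← (Fin.consEquiv (fun _ : Fin (M + 1) => κ)).sum_comp, Fintype.sum_prod_type]
    rw [Finset.sum_comm]
    have h1 := ih (fun τ' => Φ (Fin.cons none τ')) (by
      intro τ' a ha
      have h2 := hΦ (Fin.cons none τ') a.succ (by simpa using ha)
      simp only [Fin.cons_update]
      exact h2)
    rw [e0]
    refine le_trans ?_ h1
    refine Finset.sum_le_sum fun τ' _ => ?_
    have h3 := hΦ (Fin.cons none fun a => some (τ' a)) 0 (by simp)
    have hpos : 0 ≤ ∏ a, w (τ' a) := Finset.prod_nonneg fun a _ => hw _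
    calc _ = (∏ a, w (τ' a)) * ∑ b, w b * Φ (Function.update
          (Fin.cons none fun a => some (τ' a)) 0 (some b)) := by
          rw [Finset.mul_sum]
          refine Finset.sum_congr rfl fun b _ => ?_
          have e1 : (fun a : Fin (M + 1) => some
              ((Fin.consEquiv (fun _ : Fin (M + 1) => κ)) (b, τ') a))
              = Function.update (Fin.cons none fun a => some (τ' a)) 0 (some b) := by
            rw [Fin.update_cons_zero]
            funext a
            refine Fin.cases ?_ (fun i => ?_) a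
            · simp [Fin.consEquiv]
            · simp [Fin.consEquiv]
          rw [e1, Fin.prod_univ_succ]
          simp only [Fin.consEquiv, Equiv.coe_fn_mk, Fin.cons_zero, Fin.cons_succ]
          ring
      _ ≤ _ := mul_le_mul_of_nonneg_left h3 hpos

end Hybrid

section Z

variable {ι : Type*} [Fintype ι] {X : Type*} [MeasurableSpace X]

/-- partition function with pattern types `D` and base measure `G` -/
noncomputable def Zf (U : ℝ → ℝ) {M : ℕ} (D : Fin M → X → ι → ℝ) (G : Measure X)
    (g : Fin M → ι → ℝ) : ℝ :=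
  ∫ x, ∏ a, U (dotp (g a) (D a x)) ∂G

/-- expected log partition function -/
noncomputable def Phi (U : ℝ → ℝ) {M : ℕ} (D : Fin M → X → ι → ℝ) (G : Measure X) : ℝ :=
  ∫ g, Real.log (Zf U D G g) ∂(Measure.pi fun _ : Fin M => gam ι)

/-- the weight is measurable and bounded above and below -/
structure Nice (U : ℝ → ℝ) (K : ℝ) : Prop where
  meas : Measurable U
  lower : ∀ h, Real.exp (-K) ≤ U h
  upper : ∀ h, U h ≤ Real.exp K

variable {U : ℝ → ℝ} {K : ℝ}

lemma Nice.pos (hU : Nice U K) (h : ℝ) : 0 < U h := lt_of_lt_of_le (Real.exp_pos _) (hU.lower h)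

lemma Nice.K_nonneg (hU : Nice U K) : 0 ≤ K := by
  have := (hU.lower 0).trans (hU.upper 0)
  rw [Real.exp_le_exp] at this
  linarith

omit [MeasurableSpace X] in
lemma prod_bounds (hU : Nice U K) {M : ℕ} (D : Fin M → X → ι → ℝ) (g : Fin M → ι → ℝ) (x : X) :
    Real.exp (-(K * M)) ≤ ∏ a, U (dotp (g a) (D a x)) ∧
      ∏ a, U (dotp (g a) (D a x)) ≤ Real.exp (K * M) := by
  constructor
  · calc Real.exp (-(K * M)) = ∏ _a : Fin M, Real.exp (-K) := by
          rw [Finset.prod_const, Finset.card_univ, Fintype.card_fin, ← Real.exp_nat_mul]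
          congr 1; ring
      _ ≤ _ := Finset.prod_le_prod (fun _ _ => (Real.exp_pos _).le) fun a _ => hU.lower _
  · calc _ ≤ ∏ _a : Fin M, Real.exp K :=
          Finset.prod_le_prod (fun a _ => (hU.pos _).le) fun a _ => hU.upper _
      _ = Real.exp (K * M) := by
          rw [Finset.prod_const, Finset.card_univ, Fintype.card_fin, ← Real.exp_nat_mul]
          congr 1; ring

lemma measurable_prod_uncurry (hU : Nice U K) {M : ℕ} {D : Fin M → X → ι → ℝ}
    (hD : ∀ a, Measurable (D a)) :
    Measurable fun p : (Fin M → ι → ℝ) × X => ∏ a, U (dotp (p.1 a) (D a p.2)) := by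
  refine Finset.measurable_prod _ fun a _ => ?_
  refine hU.meas.comp ?_
  have h1 : Measurable fun p : (Fin M → ι → ℝ) × X => (p.1 a, p.2) :=
    ((measurable_pi_apply a).comp measurable_fst).prodMk measurable_snd
  exact (measurable_dotp_comp (hD a)).comp h1

lemma measurable_prod_right (hU : Nice U K) {M : ℕ} {D : Fin M → X → ι → ℝ}
    (hD : ∀ a, Measurable (D a)) (g : Fin M → ι → ℝ) :
    Measurable fun x : X => ∏ a, U (dotp (g a) (D a x)) :=
  (measurable_prod_uncurry hU hD).comp (measurable_const.prodMk measurable_id)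

lemma integrable_prod_right (hU : Nice U K) {M : ℕ} {D : Fin M → X → ι → ℝ}
    (hD : ∀ a, Measurable (D a)) (G : Measure X) [IsFiniteMeasure G] (g : Fin M → ι → ℝ) :
    Integrable (fun x : X => ∏ a, U (dotp (g a) (D a x))) G := by
  refine Integrable.of_bound (measurable_prod_right hU hD g).aestronglyMeasurable
    (Real.exp (K * M)) ?_
  filter_upwards with x
  have h := prod_bounds hU D g x
  rw [Real.norm_eq_abs, abs_of_pos (lt_of_lt_of_le (Real.exp_pos _) h.1)]
  exact h.2

lemma measurable_Zf (hU : Nice U K) {M : ℕ} {D : Fin M → X → ι → ℝ}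
    (hD : ∀ a, Measurable (D a)) (G : Measure X) [IsFiniteMeasure G] :
    Measurable (Zf U D G) := by
  have h : StronglyMeasurable (Function.uncurry fun (g : Fin M → ι → ℝ) (x : X) =>
      ∏ a, U (dotp (g a) (D a x))) := (measurable_prod_uncurry hU hD).stronglyMeasurable
  exact h.integral_prod_right.measurable

lemma Zf_bounds (hU : Nice U K) {M : ℕ} {D : Fin M → X → ι → ℝ}
    (hD : ∀ a, Measurable (D a)) (G : Measure X) [IsFiniteMeasure G] (g : Fin M → ι → ℝ) :
    Real.exp (-(K * M)) * G.real Set.univ ≤ Zf U D G g ∧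
      Zf U D G g ≤ Real.exp (K * M) * G.real Set.univ := by
  unfold Zf
  constructor
  · calc Real.exp (-(K * M)) * G.real Set.univ = ∫ _x, Real.exp (-(K * M)) ∂G := by
          rw [integral_const, smul_eq_mul, mul_comm]
      _ ≤ _ := integral_mono (integrable_const _) (integrable_prod_right hU hD G g)
          fun x => (prod_bounds hU D g x).1
  · calc _ ≤ ∫ _x, Real.exp (K * M) ∂G := integral_mono (integrable_prod_right hU hD G g)
          (integrable_const _) fun x => (prod_bounds hU D g x).2
      _ = Real.exp (K * M) * G.real Set.univ := by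
          rw [integral_const, smul_eq_mul, mul_comm]

lemma Zf_pos (hU : Nice U K) {M : ℕ} {D : Fin M → X → ι → ℝ}
    (hD : ∀ a, Measurable (D a)) (G : Measure X) [IsFiniteMeasure G] (hG : 0 < G.real Set.univ)
    (g : Fin M → ι → ℝ) : 0 < Zf U D G g :=
  lt_of_lt_of_le (mul_pos (Real.exp_pos _) hG) (Zf_bounds hU hD G g).1

lemma log_Zf_bounds (hU : Nice U K) {M : ℕ} {D : Fin M → X → ι → ℝ}
    (hD : ∀ a, Measurable (D a)) (G : Measure X) [IsFiniteMeasure G] (hG : 0 < G.real Set.univ)
    (g : Fin M → ι → ℝ) :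
    -(K * M) + Real.log (G.real Set.univ) ≤ Real.log (Zf U D G g) ∧
      Real.log (Zf U D G g) ≤ K * M + Real.log (G.real Set.univ) := by
  have h := Zf_bounds hU hD G g
  constructor
  · have := Real.log_le_log (mul_pos (Real.exp_pos _) hG) h.1
    rwa [Real.log_mul (Real.exp_pos _).ne' hG.ne', Real.log_exp] at this
  · have := Real.log_le_log (Zf_pos hU hD G hG g) h.2
    rwa [Real.log_mul (Real.exp_pos _).ne' hG.ne', Real.log_exp] at this

lemma integrable_log_Zf (hU : Nice U K) {M : ℕ} {D : Fin M → X → ι → ℝ}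
    (hD : ∀ a, Measurable (D a)) (G : Measure X) [IsFiniteMeasure G] (hG : 0 < G.real Set.univ)
    (P : Measure (Fin M → ι → ℝ)) [IsFiniteMeasure P] :
    Integrable (fun g => Real.log (Zf U D G g)) P := by
  refine Integrable.of_bound
    (Real.measurable_log.comp (measurable_Zf hU hD G)).aestronglyMeasurable
    (K * M + |Real.log (G.real Set.univ)|) ?_
  filter_upwards with g
  have h := log_Zf_bounds hU hD G hG g
  have h1 := neg_abs_le (Real.log (G.real Set.univ))
  have h2 := le_abs_self (Real.log (G.real Set.univ))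
  rw [Real.norm_eq_abs, abs_le]
  constructor <;> linarith

/-- integrate out one pattern -/
lemma integral_split {M : ℕ} (a : Fin (M + 1)) (F : (Fin (M + 1) → ι → ℝ) → ℝ)
    (hF : Integrable F (Measure.pi fun _ : Fin (M + 1) => gam ι)) :
    ∫ g, F g ∂(Measure.pi fun _ : Fin (M + 1) => gam ι)
      = ∫ g', ∫ g₀, F (a.insertNth g₀ g') ∂(gam ι) ∂(Measure.pi fun _ : Fin M => gam ι) := by
  have mp := measurePreserving_piFinSuccAbove (fun _ : Fin (M + 1) => gam ι) a
  have mps := mp.symm
  rw [← mps.integral_comp' F]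
  have hF' : Integrable (fun p : (ι → ℝ) × (Fin M → ι → ℝ) =>
      F ((MeasurableEquiv.piFinSuccAbove (fun _ : Fin (M + 1) => ι → ℝ) a).symm p))
      ((gam ι).prod (Measure.pi fun _ : Fin M => gam ι)) :=
    (mps.integrable_comp_emb (MeasurableEquiv.measurableEmbedding _)).2 hF
  rw [integral_prod_symm _ hF']
  rfl

/-- one-step comparison inside a system with other patterns -/
lemma Phi_step (ν : Measure ℝ) [IsFiniteMeasure ν] (hν : ν.real Set.univ < 1)
    (θ : ℝ → ℝ) (hθ : ∀ h, charFun ν h = ((θ h : ℝ) : ℂ)) (c : ℝ) (hc : 0 < c)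
    (hUθ : ∀ h, U h = c * (1 - θ h)) (hU : Nice U K)
    (G : Measure X) [IsFiniteMeasure G] (hG : 0 < G.real Set.univ)
    {κ : Type*} [Fintype κ] (w : κ → ℝ) (hw : ∀ b, 0 ≤ w b) (hw1 : ∑ b, w b = 1)
    {D₀ : X → ι → ℝ} (hD₀ : Measurable D₀) {E : κ → X → ι → ℝ} (hE : ∀ b, Measurable (E b))
    (hq : ∀ (n : ℕ) (p : Fin n → ℝ × X), quad D₀ p = ∑ b, w b * quad (E b) p)
    {M : ℕ} (D : Fin M → X → ι → ℝ) (hD : ∀ a, Measurable (D a)) (a : Fin M) (ha : D a = D₀) :
    ∑ b, w b * Phi U (Function.update D a (E b)) G ≤ Phi U D G := by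
  obtain _ | M := M
  · exact a.elim0
  have hDb : ∀ b, ∀ a', Measurable (Function.update D a (E b) a') := by
    intro b a'
    by_cases h : a' = a
    · subst h; simpa using hE b
    · simpa [Function.update_of_ne h] using hD a'
  unfold Phi
  rw [integral_split a _ (integrable_log_Zf hU hD G hG _)]
  simp_rw [fun b => integral_split a _ (integrable_log_Zf hU (hDb b) G hG _)]
  simp_rw [← integral_const_mul]
  have hint : ∀ (D' : Fin (M + 1) → X → ι → ℝ), (∀ a', Measurable (D' a')) → Integrable
      (fun g' => ∫ g₀, Real.log (Zf U D' G (a.insertNth g₀ g')) ∂(gam ι))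
      (Measure.pi fun _ : Fin M => gam ι) := by
    intro D' hD'
    have mp := measurePreserving_piFinSuccAbove (fun _ : Fin (M + 1) => gam ι) a
    have hF' : Integrable (fun p : (ι → ℝ) × (Fin M → ι → ℝ) => Real.log (Zf U D' G
        ((MeasurableEquiv.piFinSuccAbove (fun _ : Fin (M + 1) => ι → ℝ) a).symm p)))
        ((gam ι).prod (Measure.pi fun _ : Fin M => gam ι)) :=
      (mp.symm.integrable_comp_emb (MeasurableEquiv.measurableEmbedding _)).2
        (integrable_log_Zf hU hD' G hG _)
    exact hF'.integral_prod_right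
  have hint' : ∀ b, Integrable
      (fun g' => ∫ g₀, w b * Real.log (Zf U (Function.update D a (E b)) G (a.insertNth g₀ g'))
        ∂(gam ι)) (Measure.pi fun _ : Fin M => gam ι) := by
    intro b
    simp_rw [integral_const_mul]
    exact (hint _ (hDb b)).const_mul _
  rw [← integral_finsetSum _ fun b _ => hint' b]
  refine integral_mono (integrable_finsetSum _ fun b _ => hint' b) (hint _ hD) ?_
  intro g'
  -- the tilted base measure
  set W : X → ℝ := fun x => ∏ j, U (dotp (g' j) (D (a.succAbove j) x)) with hW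
  have hWm : Measurable W := by
    refine Finset.measurable_prod _ fun j _ => hU.meas.comp ?_
    unfold dotp
    refine Finset.measurable_sum _ fun i _ => ?_
    exact measurable_const.mul ((measurable_pi_apply i).comp (hD _))
  have hWb : ∀ x, Real.exp (-(K * M)) ≤ W x ∧ W x ≤ Real.exp (K * M) := fun x =>
    prod_bounds hU (fun j => D (a.succAbove j)) g' x
  have hWpos : ∀ x, 0 < W x := fun x => lt_of_lt_of_le (Real.exp_pos _) (hWb x).1
  set G' : Measure X := G.withDensity fun x => ENNReal.ofReal (W x) with hG'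
  have hWint : Integrable W G := by
    refine Integrable.of_bound hWm.aestronglyMeasurable (Real.exp (K * M)) ?_
    filter_upwards with x
    rw [Real.norm_eq_abs, abs_of_pos (hWpos x)]
    exact (hWb x).2
  have : IsFiniteMeasure G' := by
    refine isFiniteMeasure_withDensity_ofReal hWint.2
  have hint_eq : ∀ f : X → ℝ, ∫ x, f x ∂G' = ∫ x, f x * W x ∂G := by
    intro f
    rw [hG', integral_withDensity_eq_integral_toReal_smul
      (by fun_prop) (by filter_upwards with x; exact ENNReal.ofReal_lt_top)]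
    refine integral_congr_ae ?_
    filter_upwards with x
    rw [ENNReal.toReal_ofReal (hWpos x).le, smul_eq_mul, mul_comm]
  have hG'pos : 0 < G'.real Set.univ := by
    have h1 : G'.real Set.univ = ∫ x, W x ∂G := by
      have := hint_eq (fun _ => 1)
      simpa using this
    rw [h1]
    calc 0 < Real.exp (-(K * M)) * G.real Set.univ := mul_pos (Real.exp_pos _) hG
      _ = ∫ _x, Real.exp (-(K * M)) ∂G := by rw [integral_const, smul_eq_mul, mul_comm]
      _ ≤ _ := integral_mono (integrable_const _) hWint fun x => (hWb x).1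
  have hZ : ∀ (Ea : X → ι → ℝ) (g₀ : ι → ℝ), Zf U (Function.update D a Ea) G (a.insertNth g₀ g')
      = ∫ x, U (dotp g₀ (Ea x)) ∂G' := by
    intro Ea g₀
    rw [hint_eq]
    unfold Zf
    refine integral_congr_ae ?_
    filter_upwards with x
    rw [Fin.prod_univ_succAbove _ a]
    simp only [Fin.insertNth_apply_same, Function.update_self, Fin.insertNth_apply_succAbove, hW]
    congr 1
    refine Finset.prod_congr rfl fun j _ => ?_
    rw [Function.update_of_ne (Fin.succAbove_ne a j)]
  have hZ0 : ∀ g₀ : ι → ℝ, Zf U D G (a.insertNth g₀ g') = ∫ x, U (dotp g₀ (D₀ x)) ∂G' := by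
    intro g₀
    have := hZ D₀ g₀
    rwa [← ha, Function.update_eq_self, ha] at this
  show ∑ b, ∫ g₀, w b * Real.log (Zf U (Function.update D a (E b)) G (a.insertNth g₀ g')) ∂(gam ι)
    ≤ ∫ g₀, Real.log (Zf U D G (a.insertNth g₀ g')) ∂(gam ι)
  simp_rw [hZ, hZ0, integral_const_mul]
  exact one_step ν hν θ hθ c hc U hUθ G' hG'pos w hw hw1 hD₀ hE hq

/-- **Interpolation.** -/
lemma Phi_interp (ν : Measure ℝ) [IsFiniteMeasure ν] (hν : ν.real Set.univ < 1)
    (θ : ℝ → ℝ) (hθ : ∀ h, charFun ν h = ((θ h : ℝ) : ℂ)) (c : ℝ) (hc : 0 < c)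
    (hUθ : ∀ h, U h = c * (1 - θ h)) (hU : Nice U K)
    (G : Measure X) [IsFiniteMeasure G] (hG : 0 < G.real Set.univ)
    {κ : Type*} [Fintype κ] (w : κ → ℝ) (hw : ∀ b, 0 ≤ w b) (hw1 : ∑ b, w b = 1)
    {D₀ : X → ι → ℝ} (hD₀ : Measurable D₀) {E : κ → X → ι → ℝ} (hE : ∀ b, Measurable (E b))
    (hq : ∀ (n : ℕ) (p : Fin n → ℝ × X), quad D₀ p = ∑ b, w b * quad (E b) p) (M : ℕ) :
    ∑ τ : Fin M → κ, (∏ a, w (τ a)) * Phi U (fun a => E (τ a)) G
      ≤ Phi U (fun _ : Fin M => D₀) G := by
  set T : Option κ → X → ι → ℝ := fun o => o.elim D₀ E with hT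
  have hTm : ∀ o, Measurable (T o) := by
    intro o
    cases o with
    | none => exact hD₀
    | some b => exact hE b
  have := hybrid w hw M (fun τ => Phi U (fun a => T (τ a)) G) (by
    intro τ a ha
    have h1 := Phi_step ν hν θ hθ c hc hUθ hU G hG w hw hw1 hD₀ hE hq (fun a => T (τ a))
      (fun a => hTm _) a (by rw [ha]; rfl)
    refine le_trans (le_of_eq ?_) h1
    refine Finset.sum_congr rfl fun b _ => ?_
    congr 2
    funext a'
    by_cases h : a' = a
    · subst h; simp [hT]
    · simp [Function.update_of_ne h])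
  exact this

end Z

end Vale.Agent.P157
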