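import Vale.Agent.Lib.P157.Poisson

/-!
# Existence of the limit for superadditive priors
-/

open MeasureTheory ProbabilityTheory Filter Topology
open scoped NNReal ENNReal Nat

namespace Vale.Agent.P157

variable {U : ℝ → ℝ} {K : ℝ}

/-- Poissonized expected log partition function -/
noncomputable def PE (U : ℝ → ℝ) {N : ℕ} (ρ : Measure (Fin N → ℝ)) (l : ℝ) : ℝ :=
  ∑' M, pw l M * FE U ρ M

lemma PE_summable (hU : Nice U K) {N : ℕ} (ρ : Measure (Fin N → ℝ)) [IsFiniteMeasure ρ]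
    (hρ : 0 < ρ.real Set.univ) {l : ℝ} (hl : 0 ≤ l) : Summable (fun M => pw l M * FE U ρ M) := by
  set L := |Real.log (ρ.real Set.univ)| with hL
  have h := (((pw_hasSum_mul hl).mul_left K).add ((pw_hasSum hl).mul_left L)).summable
  refine Summable.of_norm_bounded h fun M => ?_
  have hb := FE_bounds hU ρ hρ M
  have h1 := neg_abs_le (Real.log (ρ.real Set.univ))
  have h2 := le_abs_self (Real.log (ρ.real Set.univ))
  have h3 : |FE U ρ M| ≤ K * M + L := by
    rw [abs_le]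
    constructor <;> linarith
  rw [norm_mul, Real.norm_eq_abs, Real.norm_eq_abs, abs_of_nonneg (pw_nonneg hl M)]
  calc pw l M * |FE U ρ M| ≤ pw l M * (K * M + L) := mul_le_mul_of_nonneg_left h3 (pw_nonneg hl M)
    _ = _ := by ring

/-- de-Poissonization -/
lemma PE_near (hU : Nice U K) {N : ℕ} (ρ : Measure (Fin N → ℝ)) [IsFiniteMeasure ρ]
    (hρ : 0 < ρ.real Set.univ) {l : ℝ} (hl : 0 ≤ l) (m : ℕ) (hm : |(m : ℝ) - l| ≤ 1) :
    |PE U ρ l - FE U ρ m| ≤ K * (Real.sqrt l + 2) := by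
  have hs := PE_summable hU ρ hρ hl
  have hd := pw_dev hl m hm
  have h1 : PE U ρ l - FE U ρ m = ∑' M, pw l M * (FE U ρ M - FE U ρ m) := by
    have h2 : FE U ρ m = ∑' M, pw l M * FE U ρ m := by
      rw [tsum_mul_right, (pw_hasSum hl).tsum_eq, one_mul]
    unfold PE
    conv_lhs => rw [h2]
    rw [← hs.tsum_sub ((pw_hasSum hl).summable.mul_right _)]
    refine tsum_congr fun M => ?_
    ring
  rw [h1]
  have hbd : ∀ M : ℕ, ‖pw l M * (FE U ρ M - FE U ρ m)‖ ≤ K * (pw l M * |(M : ℝ) - m|) := by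
    intro M
    rw [norm_mul, Real.norm_eq_abs, Real.norm_eq_abs, abs_of_nonneg (pw_nonneg hl M)]
    calc pw l M * |FE U ρ M - FE U ρ m| ≤ pw l M * (K * |(M : ℝ) - m|) :=
          mul_le_mul_of_nonneg_left (FE_lipschitz hU ρ hρ M m) (pw_nonneg hl M)
      _ = _ := by ring
  rw [← Real.norm_eq_abs]
  have hsumK : Summable fun M : ℕ => K * (pw l M * |(M : ℝ) - m|) := hd.1.mul_left K
  calc _ ≤ ∑' M : ℕ, K * (pw l M * |(M : ℝ) - m|) :=
        tsum_of_norm_bounded hsumK.hasSum hbd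
    _ = K * ∑' M : ℕ, pw l M * |(M : ℝ) - m| := tsum_mul_left
    _ ≤ _ := mul_le_mul_of_nonneg_left hd.2 hU.K_nonneg

lemma PE_super (ν : Measure ℝ) [IsFiniteMeasure ν] (hν : ν.real Set.univ < 1)
    (θ : ℝ → ℝ) (hθ : ∀ h, charFun ν h = ((θ h : ℝ) : ℂ)) (c : ℝ) (hc : 0 < c)
    (hUθ : ∀ h, U h = c * (1 - θ h)) (hU : Nice U K)
    {N₁ N₂ : ℕ} (h₁ : 0 < N₁) (h₂ : 0 < N₂)
    (ρ₁ : Measure (Fin N₁ → ℝ)) [IsFiniteMeasure ρ₁] (hρ₁ : 0 < ρ₁.real Set.univ)
    (ρ₂ : Measure (Fin N₂ → ℝ)) [IsFiniteMeasure ρ₂] (hρ₂ : 0 < ρ₂.real Set.univ)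
    (ρ : Measure (Fin (N₁ + N₂) → ℝ)) [IsFiniteMeasure ρ] (hρ : 0 < ρ.real Set.univ)
    (hle : (ρ₁.prod ρ₂).map (fun p => Fin.append p.1 p.2) ≤ ρ) {α : ℝ} (hα : 0 < α) :
    PE U ρ₁ (α * N₁) + PE U ρ₂ (α * N₂) ≤ PE U ρ (α * (N₁ + N₂ : ℕ)) := by
  have hN₁ : (0 : ℝ) < N₁ := by exact_mod_cast h₁
  have hN₂ : (0 : ℝ) < N₂ := by exact_mod_cast h₂
  set l₁ := α * N₁ with hl₁
  set l₂ := α * N₂ with hl₂
  have p₁ : 0 < l₁ := by positivity
  have p₂ : 0 < l₂ := by positivity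
  have hl : α * (N₁ + N₂ : ℕ) = l₁ + l₂ := by rw [hl₁, hl₂]; push_cast; ring
  have w₁ : (N₁ : ℝ) / (N₁ + N₂ : ℕ) = l₁ / (l₁ + l₂) := by
    rw [← hl, hl₁, mul_div_mul_left _ _ hα.ne']
  have w₂ : (N₂ : ℝ) / (N₁ + N₂ : ℕ) = l₂ / (l₁ + l₂) := by
    rw [← hl, hl₂, mul_div_mul_left _ _ hα.ne']
  rw [hl]
  have hs := PE_summable hU ρ hρ (add_pos p₁ p₂).le
  have s₁ := PE_summable hU ρ₁ hρ₁ p₁.le
  have s₂ := PE_summable hU ρ₂ hρ₂ p₂.le
  have q₁ := pw_hasSum p₁.le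
  have q₂ := pw_hasSum p₂.le
  -- Cauchy products
  have c₁ := summable_norm_sum_mul_antidiagonal_of_summable_norm s₁.norm q₂.summable.norm
  have c₂ := summable_norm_sum_mul_antidiagonal_of_summable_norm q₁.summable.norm s₂.norm
  have t₁ := tsum_mul_tsum_eq_tsum_sum_antidiagonal_of_summable_norm s₁.norm q₂.summable.norm
  have t₂ := tsum_mul_tsum_eq_tsum_sum_antidiagonal_of_summable_norm q₁.summable.norm s₂.norm
  rw [q₂.tsum_eq, mul_one] at t₁
  rw [q₁.tsum_eq, one_mul] at t₂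
  unfold PE
  rw [t₁, t₂, ← c₁.of_norm.tsum_add c₂.of_norm]
  refine (c₁.of_norm.add c₂.of_norm).tsum_le_tsum (fun M => ?_) hs
  rw [← Finset.sum_add_distrib]
  have tb := two_block ν hν θ hθ c hc hUθ hU h₁ h₂ ρ₁ hρ₁ ρ₂ hρ₂ ρ hle M
  rw [w₁, w₂] at tb
  rw [count_sum _ _ M (fun k j => FE U ρ₁ k + FE U ρ₂ j)] at tb
  refine le_trans (le_of_eq ?_) (mul_le_mul_of_nonneg_left tb (pw_nonneg (add_pos p₁ p₂).le M))
  rw [Finset.mul_sum]
  refine Finset.sum_congr rfl fun ij hij => ?_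
  rw [Finset.HasAntidiagonal.mem_antidiagonal] at hij
  have := pw_split p₁ p₂ ij.1 ij.2
  rw [hij] at this
  calc _ = pw l₁ ij.1 * pw l₂ ij.2 * (FE U ρ₁ ij.1 + FE U ρ₂ ij.2) := by ring
    _ = _ := by rw [← this]; ring

/-- a sequence of base measures for which two blocks can be put side by side -/
structure Prior (ρ : ∀ N : ℕ, Measure (Fin N → ℝ)) : Prop where
  fin : ∀ N, IsFiniteMeasure (ρ N)
  pos : ∀ N, 0 < N → 0 < (ρ N).real Set.univ
  super : ∀ N₁ N₂, 0 < N₁ → 0 < N₂ →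
    ((ρ N₁).prod (ρ N₂)).map (fun p => Fin.append p.1 p.2) ≤ ρ (N₁ + N₂)
  growth : ∃ C : ℝ, ∀ N, 0 < N → Real.log ((ρ N).real Set.univ) ≤ C * N

/-- **Existence of the limit for superadditive priors.** -/
theorem prior_limit (ν : Measure ℝ) [IsFiniteMeasure ν] (hν : ν.real Set.univ < 1)
    (θ : ℝ → ℝ) (hθ : ∀ h, charFun ν h = ((θ h : ℝ) : ℂ)) (c : ℝ) (hc : 0 < c)
    (hUθ : ∀ h, U h = c * (1 - θ h)) (hU : Nice U K)
    (ρ : ∀ N : ℕ, Measure (Fin N → ℝ)) (hρ : Prior ρ) {α : ℝ} (hα : 0 < α) :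
    ∃ L, Tendsto (fun N : ℕ => FE U (ρ N) ⌊α * N⌋₊ / N) atTop (𝓝 L) := by
  obtain ⟨C, hC⟩ := hρ.growth
  have hfin := hρ.fin
  set v : ℕ → ℝ := fun N => if N = 0 then 0 else -PE U (ρ N) (α * N) with hv
  have hsub : Subadditive v := by
    intro m n
    rcases Nat.eq_zero_or_pos m with rfl | hm
    · simp [hv]
    rcases Nat.eq_zero_or_pos n with rfl | hn
    · simp [hv]
    have h := PE_super ν hν θ hθ c hc hUθ hU hm hn (ρ m) (hρ.pos m hm) (ρ n) (hρ.pos n hn)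
      (ρ (m + n)) (hρ.pos _ (by omega)) (hρ.super m n hm hn) hα
    simp only [hv, hm.ne', hn.ne', if_false, show ¬ (m + n = 0) by omega]
    linarith
  have hbdd : BddBelow (Set.range fun n : ℕ => v n / n) := by
    refine ⟨-(K * α + |C|), ?_⟩
    rintro _ ⟨n, rfl⟩
    rcases Nat.eq_zero_or_pos n with rfl | hn
    · have hK := hU.K_nonneg
      simp only [Nat.cast_zero, div_zero]
      have : 0 ≤ K * α + |C| := by positivity
      linarith
    · have hn' : (0 : ℝ) < n := by exact_mod_cast hn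
      have hl : 0 ≤ α * n := by positivity
      simp only [hv, hn.ne', if_false]
      rw [le_div_iff₀ hn']
      have hup : PE U (ρ n) (α * n) ≤ K * (α * n) + C * n := by
        have hs := PE_summable hU (ρ n) (hρ.pos n hn) hl
        have h2 := ((pw_hasSum_mul hl).mul_left K).add
          ((pw_hasSum hl).mul_left (Real.log ((ρ n).real Set.univ)))
        unfold PE
        calc _ ≤ K * (α * n) + Real.log ((ρ n).real Set.univ) * 1 := by
              rw [← h2.tsum_eq]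
              refine hs.tsum_le_tsum (fun M => ?_) h2.summable
              calc pw (α * n) M * FE U (ρ n) M
                  ≤ pw (α * n) M * (K * M + Real.log ((ρ n).real Set.univ)) :=
                    mul_le_mul_of_nonneg_left (FE_bounds hU (ρ n) (hρ.pos n hn) M).2
                      (pw_nonneg hl M)
                _ = _ := by ring
          _ ≤ _ := by linarith [hC n hn]
      have : C * n ≤ |C| * n := mul_le_mul_of_nonneg_right (le_abs_self C) hn'.le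
      nlinarith
  have hlim := hsub.tendsto_lim hbdd
  refine ⟨-hsub.lim, ?_⟩
  have hneg := hlim.neg
  -- the difference tends to zero
  have hdiff : Tendsto (fun N : ℕ => FE U (ρ N) ⌊α * N⌋₊ / N - -(v N / N)) atTop (𝓝 0) := by
    have hbound : ∀ᶠ N : ℕ in atTop, ‖FE U (ρ N) ⌊α * N⌋₊ / N - -(v N / N)‖
        ≤ K * (Real.sqrt α * (Real.sqrt N)⁻¹ + 2 * (N : ℝ)⁻¹) := by
      filter_upwards [eventually_gt_atTop 0] with n hn
      have hn' : (0 : ℝ) < n := by exact_mod_cast hn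
      have hl : 0 ≤ α * n := by positivity
      have hfl : |((⌊α * n⌋₊ : ℕ) : ℝ) - α * n| ≤ 1 := by
        have h1 := Nat.floor_le hl
        have h2 := Nat.lt_floor_add_one (α * n)
        rw [abs_le]
        constructor <;> linarith
      have h := PE_near hU (ρ n) (hρ.pos n hn) hl _ hfl
      simp only [hv, hn.ne', if_false]
      rw [show FE U (ρ n) ⌊α * n⌋₊ / n - -(-PE U (ρ n) (α * n) / n)
        = -((PE U (ρ n) (α * n) - FE U (ρ n) ⌊α * n⌋₊) / n) by ring, norm_neg, norm_div,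
        Real.norm_eq_abs, Real.norm_eq_abs, abs_of_pos hn', div_le_iff₀ hn']
      refine h.trans (le_of_eq ?_)
      have hsq : Real.sqrt n * Real.sqrt n = n := Real.mul_self_sqrt hn'.le
      have hsn : Real.sqrt n ≠ 0 := (Real.sqrt_pos.2 hn').ne'
      rw [Real.sqrt_mul hα.le]
      have e1 : (Real.sqrt n)⁻¹ * n = Real.sqrt n := by
        rw [← hsq]
        field_simp
        rw [Real.sqrt_sq (Real.sqrt_nonneg _)]
      have e2 : ((n : ℝ))⁻¹ * n = 1 := inv_mul_cancel₀ hn'.ne'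
      calc K * (Real.sqrt α * Real.sqrt n + 2)
          = K * (Real.sqrt α * ((Real.sqrt n)⁻¹ * n) + 2 * ((n : ℝ)⁻¹ * n)) := by rw [e1, e2]; ring
        _ = _ := by ring
    refine squeeze_zero_norm' hbound ?_
    have h1 : Tendsto (fun N : ℕ => (Real.sqrt N)⁻¹) atTop (𝓝 0) :=
      (tendsto_inv_atTop_zero.comp (Real.tendsto_sqrt_atTop.comp tendsto_natCast_atTop_atTop))
    have h2 : Tendsto (fun N : ℕ => ((N : ℝ))⁻¹) atTop (𝓝 0) :=
      tendsto_inv_atTop_zero.comp tendsto_natCast_atTop_atTop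
    have h3 := ((h1.const_mul (Real.sqrt α)).add (h2.const_mul 2)).const_mul K
    simpa using h3
  have := hdiff.add hneg
  simpa using this

end Vale.Agent.P157
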