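import Mathlib

/-!
# One-step comparison for Gaussian patterns

For a weight `U = c (1 - θ)` with `θ` the characteristic function of a positive measure of mass `< 1`
the functional `R ↦ E log ∫ U(z_x) dG(x)`, `z` centred Gaussian with covariance `R`, is concave.
-/

open MeasureTheory ProbabilityTheory
open scoped NNReal ENNReal

namespace Vale.Agent.P157

/-- standard Gaussian law on `ι → ℝ` -/
noncomputable abbrev gam (ι : Type*) [Fintype ι] : Measure (ι → ℝ) :=
  Measure.pi fun _ : ι => gaussianReal 0 1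

section OneStep

variable {ι : Type*} [Fintype ι]

lemma gauss_char (y : ι → ℝ) :
    ∫ g, Complex.exp (((∑ j, g j * y j : ℝ) : ℂ) * Complex.I) ∂(gam ι)
      = ((Real.exp (-(∑ j, (y j) ^ 2) / 2) : ℝ) : ℂ) := by
  have h1 : ∀ g : ι → ℝ, Complex.exp (((∑ j, g j * y j : ℝ) : ℂ) * Complex.I)
      = ∏ j, Complex.exp ((y j : ℂ) * (g j : ℂ) * Complex.I) := by
    intro g
    rw [← Complex.exp_sum]
    congr 1
    push_cast
    rw [Finset.sum_mul]
    refine Finset.sum_congr rfl fun j _ => ?_
    ring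
  simp_rw [h1]
  rw [integral_fintype_prod_eq_prod (𝕜 := ℂ)
    (f := fun (j : ι) (x : ℝ) => Complex.exp ((y j : ℂ) * (x : ℂ) * Complex.I))]
  have h2 : ∀ j : ι, ∫ x : ℝ, Complex.exp ((y j : ℂ) * (x : ℂ) * Complex.I) ∂(gaussianReal 0 1)
      = Complex.exp (-((y j : ℂ) ^ 2) / 2) := by
    intro j
    rw [← charFun_apply_real, charFun_gaussianReal]
    congr 1
    simp
    ring
  simp_rw [h2]
  rw [← Complex.exp_sum]
  push_cast
  congr 1
  rw [← Finset.sum_div, Finset.sum_neg_distrib]

variable {X : Type*} [MeasurableSpace X]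

/-- the inner product of a pattern with the field vector -/
def dotp (g y : ι → ℝ) : ℝ := ∑ j, g j * y j

lemma measurable_dotp_comp {D : X → ι → ℝ} (hD : Measurable D) :
    Measurable fun p : (ι → ℝ) × X => dotp p.1 (D p.2) := by
  unfold dotp
  refine Finset.measurable_sum _ fun j _ => ?_
  exact ((measurable_pi_apply j).comp measurable_fst).mul
    ((measurable_pi_apply j).comp (hD.comp measurable_snd))

/-- the quadratic form `|∑ₗ sₗ D(xₗ)|²` -/
def quad {n : ℕ} (D : X → ι → ℝ) (p : Fin n → ℝ × X) : ℝ :=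
  ∑ j, (∑ l, (p l).1 * D (p l).2 j) ^ 2

omit [MeasurableSpace X] in
lemma quad_nonneg {n : ℕ} (D : X → ι → ℝ) (p : Fin n → ℝ × X) : 0 ≤ quad D p :=
  Finset.sum_nonneg fun _ _ => sq_nonneg _

lemma measurable_quad {n : ℕ} {D : X → ι → ℝ} (hD : Measurable D) :
    Measurable (quad (n := n) D) := by
  unfold quad
  refine Finset.measurable_sum _ fun j _ => ?_
  refine Measurable.pow_const ?_ 2
  refine Finset.measurable_sum _ fun l _ => ?_
  exact (measurable_fst.comp (measurable_pi_apply l)).mul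
    ((measurable_pi_apply j).comp (hD.comp (measurable_snd.comp (measurable_pi_apply l))))

lemma moment_formula (ν : Measure ℝ) [IsFiniteMeasure ν] (θ : ℝ → ℝ)
    (hθ : ∀ h, charFun ν h = ((θ h : ℝ) : ℂ)) (G : Measure X) [IsFiniteMeasure G]
    {D : X → ι → ℝ} (hD : Measurable D) (n : ℕ) :
    ∫ g, (∫ x, θ (dotp g (D x)) ∂G) ^ n ∂(gam ι)
      = ∫ p : Fin n → ℝ × X, Real.exp (-(quad D p) / 2) ∂(Measure.pi fun _ => ν.prod G) := by
  -- complex form of the inner integral
  have hJ : ∀ g : ι → ℝ, (((∫ x, θ (dotp g (D x)) ∂G : ℝ)) : ℂ)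
      = ∫ q : ℝ × X, Complex.exp (((dotp g (D q.2) * q.1 : ℝ) : ℂ) * Complex.I) ∂(ν.prod G) := by
    intro g
    have hmeas : Measurable fun q : ℝ × X =>
        Complex.exp (((dotp g (D q.2) * q.1 : ℝ) : ℂ) * Complex.I) := by
      have h0 : Measurable fun q : ℝ × X => dotp g (D q.2) := by
        unfold dotp
        refine Finset.measurable_sum _ fun j _ => ?_
        exact measurable_const.mul ((measurable_pi_apply j).comp (hD.comp measurable_snd))
      have h1 : Measurable fun q : ℝ × X => dotp g (D q.2) * q.1 := h0.mul measurable_fst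
      exact Complex.measurable_exp.comp ((Complex.measurable_ofReal.comp h1).mul_const _)
    have hint : Integrable (fun q : ℝ × X =>
        Complex.exp (((dotp g (D q.2) * q.1 : ℝ) : ℂ) * Complex.I)) (ν.prod G) := by
      refine Integrable.of_bound hmeas.aestronglyMeasurable 1 ?_
      filter_upwards with q
      rw [Complex.norm_exp_ofReal_mul_I]
    rw [integral_prod_symm _ hint, ← integral_complex_ofReal]
    refine integral_congr_ae ?_
    filter_upwards with x
    have := hθ (dotp g (D x))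
    rw [charFun_apply_real] at this
    rw [← this]
    refine integral_congr_ae ?_
    filter_upwards with s
    congr 2
    push_cast
    ring
  have hpow : ∀ g : ι → ℝ, (((∫ x, θ (dotp g (D x)) ∂G : ℝ)) : ℂ) ^ n
      = ∫ p : Fin n → ℝ × X, Complex.exp
          (((∑ j, g j * (∑ l, (p l).1 * D (p l).2 j) : ℝ) : ℂ) * Complex.I)
          ∂(Measure.pi fun _ => ν.prod G) := by
    intro g
    rw [hJ g]
    have := integral_fintype_prod_eq_pow (𝕜 := ℂ) (ι := Fin n) (μ := ν.prod G)
      (fun q : ℝ × X => Complex.exp (((dotp g (D q.2) * q.1 : ℝ) : ℂ) * Complex.I))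
    rw [Fintype.card_fin] at this
    rw [← this]
    refine integral_congr_ae ?_
    filter_upwards with p
    rw [← Complex.exp_sum]
    congr 1
    rw [← Finset.sum_mul]
    congr 1
    rw [← Complex.ofReal_sum]
    congr 1
    unfold dotp
    simp_rw [Finset.mul_sum, Finset.sum_mul]
    rw [Finset.sum_comm]
    refine Finset.sum_congr rfl fun j _ => Finset.sum_congr rfl fun l _ => ?_
    ring
  have hmain : (((∫ g, (∫ x, θ (dotp g (D x)) ∂G) ^ n ∂(gam ι)) : ℝ) : ℂ)
      = (((∫ p : Fin n → ℝ × X, Real.exp (-(quad D p) / 2)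
          ∂(Measure.pi fun _ => ν.prod G)) : ℝ) : ℂ) := by
    rw [← integral_complex_ofReal, ← integral_complex_ofReal]
    have e1 : ∀ g : ι → ℝ, (((∫ x, θ (dotp g (D x)) ∂G) ^ n : ℝ) : ℂ)
        = ∫ p : Fin n → ℝ × X, Complex.exp
          (((∑ j, g j * (∑ l, (p l).1 * D (p l).2 j) : ℝ) : ℂ) * Complex.I)
          ∂(Measure.pi fun _ => ν.prod G) := by
      intro g
      rw [← hpow g]
      push_cast
      rfl
    simp_rw [e1]
    rw [integral_integral_swap]
    · refine integral_congr_ae ?_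
      filter_upwards with p
      have := gauss_char (fun j => ∑ l, (p l).1 * D (p l).2 j)
      unfold quad
      exact this
    · refine Integrable.of_bound ?_ 1 ?_
      · have : Measurable (Function.uncurry fun (g : ι → ℝ) (p : Fin n → ℝ × X) => Complex.exp
            (((∑ j, g j * (∑ l, (p l).1 * D (p l).2 j) : ℝ) : ℂ) * Complex.I)) := by
          refine Complex.measurable_exp.comp ((Complex.measurable_ofReal.comp ?_).mul_const _)
          refine Finset.measurable_sum _ fun j _ => ?_
          refine ((measurable_pi_apply j).comp measurable_fst).mul ?_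
          refine Finset.measurable_sum _ fun l _ => ?_
          exact (measurable_fst.comp ((measurable_pi_apply l).comp measurable_snd)).mul
            ((measurable_pi_apply j).comp (hD.comp (measurable_snd.comp
              ((measurable_pi_apply l).comp measurable_snd))))
        exact this.aestronglyMeasurable
      · filter_upwards with q
        simp only [Function.uncurry]
        rw [Complex.norm_exp_ofReal_mul_I]
  exact_mod_cast hmain

/-- convexity of the moments in the overlap form -/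
lemma moment_convex (ν : Measure ℝ) [IsFiniteMeasure ν] (θ : ℝ → ℝ)
    (hθ : ∀ h, charFun ν h = ((θ h : ℝ) : ℂ)) (G : Measure X) [IsFiniteMeasure G]
    {κ : Type*} [Fintype κ] (w : κ → ℝ) (hw : ∀ b, 0 ≤ w b) (hw1 : ∑ b, w b = 1)
    {D₀ : X → ι → ℝ} (hD₀ : Measurable D₀) {D : κ → X → ι → ℝ} (hD : ∀ b, Measurable (D b))
    (hq : ∀ (n : ℕ) (p : Fin n → ℝ × X), quad D₀ p = ∑ b, w b * quad (D b) p) (n : ℕ) :
    ∫ g, (∫ x, θ (dotp g (D₀ x)) ∂G) ^ n ∂(gam ι)
      ≤ ∑ b, w b * ∫ g, (∫ x, θ (dotp g (D b x)) ∂G) ^ n ∂(gam ι) := by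
  rw [moment_formula ν θ hθ G hD₀ n]
  have h1 : ∀ b, ∫ g, (∫ x, θ (dotp g (D b x)) ∂G) ^ n ∂(gam ι)
      = ∫ p : Fin n → ℝ × X, Real.exp (-(quad (D b) p) / 2) ∂(Measure.pi fun _ => ν.prod G) :=
    fun b => moment_formula ν θ hθ G (hD b) n
  simp_rw [h1]
  have hint : ∀ {E : X → ι → ℝ}, Measurable E → Integrable
      (fun p : Fin n → ℝ × X => Real.exp (-(quad E p) / 2)) (Measure.pi fun _ => ν.prod G) := by
    intro E hE
    refine Integrable.of_bound ?_ 1 ?_
    · exact (Real.measurable_exp.comp (((measurable_quad hE).neg).div_const 2)).aestronglyMeasurable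
    · filter_upwards with p
      rw [Real.norm_eq_abs, abs_of_pos (Real.exp_pos _), Real.exp_le_one_iff]
      have := quad_nonneg E p
      linarith
  simp_rw [← integral_const_mul]
  rw [← integral_finsetSum _ fun b _ => (hint (hD b)).const_mul (w b)]
  refine integral_mono (hint hD₀) (integrable_finsetSum _ fun b _ => (hint (hD b)).const_mul (w b)) ?_
  intro p
  have := convexOn_exp.map_sum_le (t := Finset.univ) (w := w)
    (p := fun b => -(quad (D b) p) / 2) (fun b _ => hw b) hw1 (fun _ _ => Set.mem_univ _)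
  simp only [smul_eq_mul] at this
  refine le_trans (le_of_eq ?_) this
  show Real.exp (-quad D₀ p / 2) = _
  congr 1
  rw [hq n p]
  rw [← Finset.sum_neg_distrib, Finset.sum_div]
  refine Finset.sum_congr rfl fun b _ => ?_
  ring

lemma abs_theta_le (ν : Measure ℝ) [IsFiniteMeasure ν] (θ : ℝ → ℝ)
    (hθ : ∀ h, charFun ν h = ((θ h : ℝ) : ℂ)) (h : ℝ) : |θ h| ≤ ν.real Set.univ := by
  have h1 := norm_charFun_le (μ := ν) (t := h)
  rw [hθ h, Complex.norm_real] at h1
  exact h1

lemma measurable_theta (ν : Measure ℝ) [IsFiniteMeasure ν] (θ : ℝ → ℝ)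
    (hθ : ∀ h, charFun ν h = ((θ h : ℝ) : ℂ)) : Measurable θ := by
  have h1 : Measurable (charFun ν) := measurable_charFun
  have h2 : θ = fun h => (charFun ν h).re := by
    funext h
    rw [hθ h, Complex.ofReal_re]
  rw [h2]
  exact Complex.measurable_re.comp h1

lemma measurable_int_theta {θ : ℝ → ℝ} (hθm : Measurable θ) (G : Measure X) [IsFiniteMeasure G]
    {D : X → ι → ℝ} (hD : Measurable D) :
    Measurable fun g : ι → ℝ => ∫ x, θ (dotp g (D x)) ∂G := by
  have h : StronglyMeasurable (Function.uncurry fun (g : ι → ℝ) (x : X) => θ (dotp g (D x))) :=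
    (hθm.comp (measurable_dotp_comp hD)).stronglyMeasurable
  exact h.integral_prod_right.measurable

/-- series expansion of the one-pattern free energy -/
lemma one_pattern_series (ν : Measure ℝ) [IsFiniteMeasure ν] (hν : ν.real Set.univ < 1)
    (θ : ℝ → ℝ) (hθ : ∀ h, charFun ν h = ((θ h : ℝ) : ℂ)) (c : ℝ) (hc : 0 < c)
    (U : ℝ → ℝ) (hU : ∀ h, U h = c * (1 - θ h))
    (G : Measure X) [IsFiniteMeasure G] (hG : 0 < G.real Set.univ)
    {D : X → ι → ℝ} (hD : Measurable D) :
    HasSum (fun n : ℕ => (∫ g, (∫ x, θ (dotp g (D x)) ∂G) ^ (n + 1) ∂(gam ι))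
        * ((G.real Set.univ) ^ (n + 1) * (n + 1))⁻¹)
      (Real.log (c * G.real Set.univ)
        - ∫ g, Real.log (∫ x, U (dotp g (D x)) ∂G) ∂(gam ι)) := by
  set r := G.real Set.univ with hr
  set m := ν.real Set.univ with hm
  have hm0 : 0 ≤ m := measureReal_nonneg
  have hθm := measurable_theta ν θ hθ
  have hθb := abs_theta_le ν θ hθ
  set T : (ι → ℝ) → ℝ := fun g => (∫ x, θ (dotp g (D x)) ∂G) / r with hT
  have hTm : Measurable T := (measurable_int_theta hθm G hD).div_const r
  have hTb : ∀ g, |T g| ≤ m := by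
    intro g
    have h1 : ‖∫ x, θ (dotp g (D x)) ∂G‖ ≤ m * r := by
      refine norm_integral_le_of_norm_le_const ?_
      filter_upwards with x
      exact hθb _
    rw [Real.norm_eq_abs] at h1
    rw [hT, abs_div, abs_of_pos hG, div_le_iff₀ hG]
    exact h1
  have hintθ : ∀ g : ι → ℝ, Integrable (fun x => θ (dotp g (D x))) G := by
    intro g
    refine Integrable.of_bound ?_ m ?_
    · refine (hθm.comp ?_).aestronglyMeasurable
      unfold dotp
      refine Finset.measurable_sum _ fun j _ => ?_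
      exact measurable_const.mul ((measurable_pi_apply j).comp hD)
    · filter_upwards with x
      exact hθb _
  have hlog : ∀ g : ι → ℝ, Real.log (∫ x, U (dotp g (D x)) ∂G)
      = Real.log (c * r) + Real.log (1 - T g) := by
    intro g
    have h1 : ∫ x, U (dotp g (D x)) ∂G = (c * r) * (1 - T g) := by
      simp_rw [hU]
      rw [integral_const_mul, integral_sub (integrable_const _) (hintθ g)]
      rw [integral_const, smul_eq_mul, mul_one, hT]
      field_simp
      rfl
    rw [h1, Real.log_mul (by positivity)]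
    have := hTb g
    rw [abs_le] at this
    linarith
  have hsum1 : ∀ g, HasSum (fun n : ℕ => (T g) ^ (n + 1) / ((n : ℝ) + 1)) (-Real.log (1 - T g)) :=
    fun g => Real.hasSum_pow_div_log_of_abs_lt_one (lt_of_le_of_lt (hTb g) hν)
  have hintn : ∀ n : ℕ, Integrable (fun g => (T g) ^ (n + 1) / ((n : ℝ) + 1)) (gam ι) := by
    intro n
    refine Integrable.of_bound ((hTm.pow_const _).div_const _).aestronglyMeasurable (m ^ (n + 1)) ?_
    filter_upwards with g
    rw [norm_div, norm_pow, Real.norm_eq_abs, Real.norm_eq_abs]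
    rw [abs_of_pos (by positivity : (0 : ℝ) < (n : ℝ) + 1)]
    calc |T g| ^ (n + 1) / ((n : ℝ) + 1) ≤ |T g| ^ (n + 1) :=
          div_le_self (by positivity) (by linarith [(Nat.cast_nonneg n : (0 : ℝ) ≤ n)])
      _ ≤ m ^ (n + 1) := pow_le_pow_left₀ (abs_nonneg _) (hTb g) _
  have hnorm : ∀ n : ℕ, ∫ g, ‖(T g) ^ (n + 1) / ((n : ℝ) + 1)‖ ∂(gam ι) ≤ m ^ (n + 1) := by
    intro n
    calc ∫ g, ‖(T g) ^ (n + 1) / ((n : ℝ) + 1)‖ ∂(gam ι)
        ≤ ∫ _g, m ^ (n + 1) ∂(gam ι) := by
          refine integral_mono (hintn n).norm (integrable_const _) ?_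
          intro g
          show ‖(T g) ^ (n + 1) / ((n : ℝ) + 1)‖ ≤ m ^ (n + 1)
          rw [norm_div, norm_pow, Real.norm_eq_abs, Real.norm_eq_abs]
          rw [abs_of_pos (by positivity : (0 : ℝ) < (n : ℝ) + 1)]
          calc |T g| ^ (n + 1) / ((n : ℝ) + 1) ≤ |T g| ^ (n + 1) :=
                div_le_self (by positivity) (by linarith [(Nat.cast_nonneg n : (0 : ℝ) ≤ n)])
            _ ≤ m ^ (n + 1) := pow_le_pow_left₀ (abs_nonneg _) (hTb g) _
      _ = m ^ (n + 1) := by simp
  have hsummable : Summable fun n : ℕ => ∫ g, ‖(T g) ^ (n + 1) / ((n : ℝ) + 1)‖ ∂(gam ι) := by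
    refine Summable.of_nonneg_of_le (fun n => integral_nonneg fun g => norm_nonneg _) hnorm ?_
    exact (summable_nat_add_iff 1).2 (summable_geometric_of_lt_one hm0 hν)
  have key := hasSum_integral_of_summable_integral_norm hintn hsummable
  have e1 : ∫ g, ∑' n : ℕ, (T g) ^ (n + 1) / ((n : ℝ) + 1) ∂(gam ι)
      = Real.log (c * r) - ∫ g, Real.log (∫ x, U (dotp g (D x)) ∂G) ∂(gam ι) := by
    have e2 : ∀ g, ∑' n : ℕ, (T g) ^ (n + 1) / ((n : ℝ) + 1)
        = Real.log (c * r) - Real.log (∫ x, U (dotp g (D x)) ∂G) := by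
      intro g
      rw [(hsum1 g).tsum_eq, hlog g]
      ring
    simp_rw [e2]
    rw [integral_sub (integrable_const _)]
    · simp
    · have : (fun g : ι → ℝ => Real.log (∫ x, U (dotp g (D x)) ∂G))
          = fun g => Real.log (c * r) + Real.log (1 - T g) := funext hlog
      rw [this]
      refine (integrable_const _).add ?_
      refine Integrable.of_bound ?_ (-Real.log (1 - m)) ?_
      · exact (Real.measurable_log.comp (measurable_const.sub hTm)).aestronglyMeasurable
      · filter_upwards with g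
        have h1 := hTb g
        rw [Real.norm_eq_abs]
        have h2 := abs_le.1 h1
        have h3 : Real.log (1 - m) ≤ Real.log (1 - T g) :=
          Real.log_le_log (by linarith) (by linarith)
        have h4 : Real.log (1 - T g) ≤ Real.log (1 + m) :=
          Real.log_le_log (by linarith) (by linarith)
        have h5 : Real.log (1 + m) ≤ - Real.log (1 - m) := by
          rw [← Real.log_inv]
          refine Real.log_le_log (by linarith) ?_
          rw [le_inv_comm₀ (by linarith) (by linarith)]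
          rw [inv_eq_one_div, le_div_iff₀ (by linarith)]
          nlinarith
        rw [abs_le]
        constructor <;> linarith
  rw [e1] at key
  have hfun : (fun n : ℕ => (∫ g, (∫ x, θ (dotp g (D x)) ∂G) ^ (n + 1) ∂(gam ι))
        * (r ^ (n + 1) * ((n : ℝ) + 1))⁻¹)
      = fun n : ℕ => ∫ g, T g ^ (n + 1) / ((n : ℝ) + 1) ∂(gam ι) := by
    funext n
    rw [← integral_mul_const]
    congr 1
    funext g
    show _ = ((∫ x, θ (dotp g (D x)) ∂G) / r) ^ (n + 1) / ((n : ℝ) + 1)
    rw [div_pow]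
    field_simp
  rw [hfun]
  exact key

/-- **One-step comparison.** -/
lemma one_step (ν : Measure ℝ) [IsFiniteMeasure ν] (hν : ν.real Set.univ < 1)
    (θ : ℝ → ℝ) (hθ : ∀ h, charFun ν h = ((θ h : ℝ) : ℂ)) (c : ℝ) (hc : 0 < c)
    (U : ℝ → ℝ) (hU : ∀ h, U h = c * (1 - θ h))
    (G : Measure X) [IsFiniteMeasure G] (hG : 0 < G.real Set.univ)
    {κ : Type*} [Fintype κ] (w : κ → ℝ) (hw : ∀ b, 0 ≤ w b) (hw1 : ∑ b, w b = 1)
    {D₀ : X → ι → ℝ} (hD₀ : Measurable D₀) {D : κ → X → ι → ℝ} (hD : ∀ b, Measurable (D b))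
    (hq : ∀ (n : ℕ) (p : Fin n → ℝ × X), quad D₀ p = ∑ b, w b * quad (D b) p) :
    ∑ b, w b * ∫ g, Real.log (∫ x, U (dotp g (D b x)) ∂G) ∂(gam ι)
      ≤ ∫ g, Real.log (∫ x, U (dotp g (D₀ x)) ∂G) ∂(gam ι) := by
  have h0 := one_pattern_series ν hν θ hθ c hc U hU G hG hD₀
  have hb := fun b => one_pattern_series ν hν θ hθ c hc U hU G hG (hD b)
  have hsum := hasSum_sum (s := Finset.univ) fun b _ => (hb b).mul_left (w b)
  have hle := hasSum_le (fun n => ?_) h0 hsum
  · have e : ∑ b, w b * (Real.log (c * G.real Set.univ)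
        - ∫ g, Real.log (∫ x, U (dotp g (D b x)) ∂G) ∂(gam ι))
        = Real.log (c * G.real Set.univ)
          - ∑ b, w b * ∫ g, Real.log (∫ x, U (dotp g (D b x)) ∂G) ∂(gam ι) := by
      simp_rw [mul_sub]
      rw [Finset.sum_sub_distrib, ← Finset.sum_mul, hw1, one_mul]
    rw [e] at hle
    linarith
  · have hc1 := moment_convex ν θ hθ G w hw hw1 hD₀ hD hq (n + 1)
    have hpos : (0 : ℝ) ≤ ((G.real Set.univ) ^ (n + 1) * (n + 1))⁻¹ := by positivity
    calc _ ≤ (∑ b, w b * ∫ g, (∫ x, θ (dotp g (D b x)) ∂G) ^ (n + 1) ∂(gam ι))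
          * ((G.real Set.univ) ^ (n + 1) * (n + 1))⁻¹ := mul_le_mul_of_nonneg_right hc1 hpos
      _ = _ := by
          rw [Finset.sum_mul]
          refine Finset.sum_congr rfl fun b _ => ?_
          ring

end OneStep

end Vale.Agent.P157
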