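import Vale.Agent.Lib.P157.Block

/-!
# Poisson number of patterns, superadditivity and the limit
-/

open MeasureTheory ProbabilityTheory Filter Topology
open scoped NNReal ENNReal Nat

namespace Vale.Agent.P157

/-- Poisson weight -/
noncomputable def pw (l : ℝ) (M : ℕ) : ℝ := Real.exp (-l) * l ^ M / (M ! : ℝ)

lemma pw_nonneg {l : ℝ} (hl : 0 ≤ l) (M : ℕ) : 0 ≤ pw l M := by unfold pw; positivity

lemma pw_hasSum {l : ℝ} (hl : 0 ≤ l) : HasSum (pw l) 1 := by
  have := hasSum_one_poissonMeasure (Real.toNNReal l)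
  simp only [Real.coe_toNNReal l hl] at this
  exact this

lemma pw_succ (l : ℝ) (M : ℕ) : pw l (M + 1) * ((M + 1 : ℕ) : ℝ) = l * pw l M := by
  unfold pw
  rw [Nat.factorial_succ]
  push_cast
  field_simp
  ring

lemma pw_hasSum_mul {l : ℝ} (hl : 0 ≤ l) : HasSum (fun M : ℕ => pw l M * (M : ℝ)) l := by
  rw [← hasSum_nat_add_iff' 1]
  simp only [Finset.range_one, Finset.sum_singleton, Nat.cast_zero, mul_zero, sub_zero]
  have h := (pw_hasSum hl).mul_left l
  rw [mul_one] at h
  have e : (fun n : ℕ => pw l (n + 1) * ((n + 1 : ℕ) : ℝ)) = fun n => l * pw l n :=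
    funext fun n => pw_succ l n
  rw [e]
  exact h

lemma pw_hasSum_sq {l : ℝ} (hl : 0 ≤ l) : HasSum (fun M : ℕ => pw l M * ((M : ℝ) * M)) (l * (l + 1)) := by
  rw [← hasSum_nat_add_iff' 1]
  simp only [Finset.range_one, Finset.sum_singleton, Nat.cast_zero, mul_zero, sub_zero]
  have h := ((pw_hasSum_mul hl).add (pw_hasSum hl)).mul_left l
  have e : (fun n : ℕ => pw l (n + 1) * (((n + 1 : ℕ) : ℝ) * ((n + 1 : ℕ) : ℝ)))
      = fun n : ℕ => l * (pw l n * (n : ℝ) + pw l n) := by
    funext n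
    rw [← mul_assoc, pw_succ]
    push_cast
    ring
  rw [e]
  exact h

/-- variance of the Poisson weights -/
lemma pw_hasSum_var {l : ℝ} (hl : 0 ≤ l) : HasSum (fun M : ℕ => pw l M * ((M : ℝ) - l) ^ 2) l := by
  have h := ((pw_hasSum_sq hl).add ((pw_hasSum_mul hl).mul_left (-2 * l))).add
    ((pw_hasSum hl).mul_left (l ^ 2))
  have e : (fun M : ℕ => pw l M * ((M : ℝ) * M) + -2 * l * (pw l M * (M : ℝ)) + l ^ 2 * pw l M)
      = fun M : ℕ => pw l M * ((M : ℝ) - l) ^ 2 := by
    funext M; ring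
  rw [e] at h
  convert h using 1
  ring

/-- mean absolute deviation of the Poisson weights -/
lemma pw_dev {l : ℝ} (hl : 0 ≤ l) (m : ℕ) (hm : |(m : ℝ) - l| ≤ 1) :
    Summable (fun M : ℕ => pw l M * |(M : ℝ) - m|) ∧
      ∑' M : ℕ, pw l M * |(M : ℝ) - m| ≤ Real.sqrt l + 2 := by
  -- `|M - m| ≤ 1 + |M - l|` and `|M - l| ≤ (s + (M-l)^2 / s)/2`, `s = √l + 1`
  set s := Real.sqrt l + 1 with hs
  have hspos : 0 < s := by positivity
  have hbound : ∀ M : ℕ, pw l M * |(M : ℝ) - m|
      ≤ (1 + s / 2) * pw l M + (1 / (2 * s)) * (pw l M * ((M : ℝ) - l) ^ 2) := by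
    intro M
    have h1 : |(M : ℝ) - m| ≤ |(M : ℝ) - l| + 1 := by
      calc |(M : ℝ) - m| = |((M : ℝ) - l) - ((m : ℝ) - l)| := by ring_nf
        _ ≤ |(M : ℝ) - l| + |(m : ℝ) - l| := abs_sub _ _
        _ ≤ _ := by linarith
    have h2 : |(M : ℝ) - l| ≤ s / 2 + (1 / (2 * s)) * ((M : ℝ) - l) ^ 2 := by
      have h3 : 0 ≤ (s - |(M : ℝ) - l|) ^ 2 := sq_nonneg _
      rw [← sq_abs ((M : ℝ) - l)]
      have h4 : (1 / (2 * s)) * |(M : ℝ) - l| ^ 2 = |(M : ℝ) - l| ^ 2 / (2 * s) := by ring
      rw [h4, div_add_div _ _ two_ne_zero (by positivity), le_div_iff₀ (by positivity)]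
      nlinarith
    calc pw l M * |(M : ℝ) - m| ≤ pw l M * (1 + s / 2 + (1 / (2 * s)) * ((M : ℝ) - l) ^ 2) :=
          mul_le_mul_of_nonneg_left (by linarith) (pw_nonneg hl M)
      _ = _ := by ring
  have hsum := ((pw_hasSum hl).mul_left (1 + s / 2)).add ((pw_hasSum_var hl).mul_left (1 / (2 * s)))
  have hsm : Summable (fun M : ℕ => pw l M * |(M : ℝ) - m|) :=
    Summable.of_nonneg_of_le (fun M => mul_nonneg (pw_nonneg hl M) (abs_nonneg _)) hbound
      hsum.summable
  refine ⟨hsm, ?_⟩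
  calc ∑' M : ℕ, pw l M * |(M : ℝ) - m| ≤ (1 + s / 2) * 1 + (1 / (2 * s)) * l := by
        rw [← hsum.tsum_eq]
        exact hsm.tsum_le_tsum hbound hsum.summable
    _ ≤ Real.sqrt l + 2 := by
        have h5 : l / s ≤ Real.sqrt l := by
          rw [div_le_iff₀ hspos, hs]
          nlinarith [Real.mul_self_sqrt hl, Real.sqrt_nonneg l]
        have h6 : (1 / (2 * s)) * l = (l / s) / 2 := by field_simp
        rw [h6, hs]
        linarith

lemma count_sum (w₁ w₂ : ℝ) (M : ℕ) (h : ℕ → ℕ → ℝ) :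
    ∑ τ : Fin M → Bool, (∏ a, (if τ a then w₁ else w₂))
      * h (Finset.univ.filter fun a => τ a = true).card
          (Finset.univ.filter fun a => ¬ τ a = true).card
    = ∑ ij ∈ Finset.HasAntidiagonal.antidiagonal M, (M.choose ij.1 : ℝ) * w₁ ^ ij.1 * w₂ ^ ij.2 * h ij.1 ij.2 := by
  classical
  rw [Finset.Nat.sum_antidiagonal_eq_sum_range_succ_mk]
  have h1 := Finset.sum_powerset_apply_card
    (x := (Finset.univ : Finset (Fin M))) (fun k => w₁ ^ k * w₂ ^ (M - k) * h k (M - k))
  rw [Finset.card_univ, Fintype.card_fin] at h1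
  have h2 : ∑ ij ∈ Finset.range M.succ, (M.choose ij : ℝ) * w₁ ^ ij * w₂ ^ (M - ij) * h ij (M - ij)
      = ∑ m ∈ Finset.range (M + 1), M.choose m • (w₁ ^ m * w₂ ^ (M - m) * h m (M - m)) := by
    refine Finset.sum_congr rfl fun k _ => ?_
    rw [nsmul_eq_mul]
    ring
  rw [h2, ← h1]
  refine Finset.sum_bij' (fun τ _ => Finset.univ.filter fun a => τ a = true)
    (fun S _ => fun a => decide (a ∈ S)) ?_ ?_ ?_ ?_ ?_
  · intro τ _
    simp
  · intro S _
    simp
  · intro τ _
    funext a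
    simp
  · intro S _
    ext a
    simp
  · intro τ _
    have hc : (Finset.univ.filter fun a => ¬ τ a = true).card
        = M - (Finset.univ.filter fun a => τ a = true).card := by
      have := Finset.card_filter_add_card_filter_not (s := (Finset.univ : Finset (Fin M)))
        (fun a => τ a = true)
      rw [Finset.card_univ, Fintype.card_fin] at this
      omega
    rw [← hc, Finset.prod_ite, Finset.prod_const, Finset.prod_const]

lemma pw_split {l₁ l₂ : ℝ} (h₁ : 0 < l₁) (h₂ : 0 < l₂) (k j : ℕ) :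
    pw (l₁ + l₂) (k + j) * (((k + j).choose k : ℝ) * (l₁ / (l₁ + l₂)) ^ k * (l₂ / (l₁ + l₂)) ^ j)
      = pw l₁ k * pw l₂ j := by
  unfold pw
  have h : 0 < l₁ + l₂ := by linarith
  rw [Nat.cast_choose ℝ (Nat.le_add_right k j), Nat.add_sub_cancel_left, neg_add, Real.exp_add,
    div_pow, div_pow, pow_add]
  have e1 : (k ! : ℝ) ≠ 0 := by positivity
  have e2 : (j ! : ℝ) ≠ 0 := by positivity
  have e3 : ((k + j)! : ℝ) ≠ 0 := by positivity
  field_simp

variable {U : ℝ → ℝ} {K : ℝ}

lemma FE_bounds (hU : Nice U K) {N : ℕ} (ρ : Measure (Fin N → ℝ)) [IsFiniteMeasure ρ]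
    (hρ : 0 < ρ.real Set.univ) (M : ℕ) :
    -(K * M) + Real.log (ρ.real Set.univ) ≤ FE U ρ M ∧
      FE U ρ M ≤ K * M + Real.log (ρ.real Set.univ) := by
  have hi := integrable_log_Zf hU (fun _ : Fin M => measurable_Dn N) ρ hρ
    (Measure.pi fun _ => gam (Fin N))
  unfold FE Phi
  constructor
  · calc _ = ∫ _g, (-(K * M) + Real.log (ρ.real Set.univ))
          ∂(Measure.pi fun _ : Fin M => gam (Fin N)) := by simp
      _ ≤ _ := integral_mono (integrable_const _) hi fun g =>
          (log_Zf_bounds hU (fun _ => measurable_Dn N) ρ hρ g).1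
  · calc _ ≤ ∫ _g, (K * M + Real.log (ρ.real Set.univ))
          ∂(Measure.pi fun _ : Fin M => gam (Fin N)) := integral_mono hi (integrable_const _) fun g =>
          (log_Zf_bounds hU (fun _ => measurable_Dn N) ρ hρ g).2
      _ = _ := by simp

lemma FE_step (hU : Nice U K) {N : ℕ} (ρ : Measure (Fin N → ℝ)) [IsFiniteMeasure ρ]
    (hρ : 0 < ρ.real Set.univ) (M : ℕ) : |FE U ρ (M + 1) - FE U ρ M| ≤ K := by
  have hD := fun (_ : Fin M) => measurable_Dn N
  have hD' := fun (_ : Fin (M + 1)) => measurable_Dn N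
  have hi := integrable_log_Zf hU hD ρ hρ (Measure.pi fun _ => gam (Fin N))
  have hi' := integrable_log_Zf hU hD' ρ hρ (Measure.pi fun _ => gam (Fin N))
  have hZ : ∀ (g₀ : Fin N → ℝ) (g' : Fin M → Fin N → ℝ),
      Real.exp (-K) * Zf U (fun _ : Fin M => Dn N) ρ g'
        ≤ Zf U (fun _ : Fin (M + 1) => Dn N) ρ ((0 : Fin (M + 1)).insertNth g₀ g') ∧
      Zf U (fun _ : Fin (M + 1) => Dn N) ρ ((0 : Fin (M + 1)).insertNth g₀ g')
        ≤ Real.exp K * Zf U (fun _ : Fin M => Dn N) ρ g' := by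
    intro g₀ g'
    have hI := integrable_prod_right hU hD ρ g'
    have hI' := integrable_prod_right hU hD' ρ ((0 : Fin (M + 1)).insertNth g₀ g')
    have hpt : ∀ x, ∏ a : Fin (M + 1), U (dotp (((0 : Fin (M + 1)).insertNth g₀ g' :
        Fin (M + 1) → Fin N → ℝ) a) (Dn N x))
        = U (dotp g₀ (Dn N x)) * ∏ a, U (dotp (g' a) (Dn N x)) := by
      intro x
      rw [Fin.prod_univ_succAbove _ 0]
      simp only [Fin.insertNth_apply_same, Fin.insertNth_apply_succAbove]
    have hpos : ∀ x, 0 ≤ ∏ a, U (dotp (g' a) (Dn N x)) := fun x =>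
      Finset.prod_nonneg fun a _ => (hU.pos _).le
    unfold Zf
    rw [← integral_const_mul, ← integral_const_mul]
    constructor
    · refine integral_mono (hI.const_mul _) hI' fun x => ?_
      simp only [hpt x]
      exact mul_le_mul_of_nonneg_right (hU.lower _) (hpos x)
    · refine integral_mono hI' (hI.const_mul _) fun x => ?_
      simp only [hpt x]
      exact mul_le_mul_of_nonneg_right (hU.upper _) (hpos x)
  have hlog : ∀ (g₀ : Fin N → ℝ) (g' : Fin M → Fin N → ℝ),
      -K + Real.log (Zf U (fun _ : Fin M => Dn N) ρ g')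
        ≤ Real.log (Zf U (fun _ : Fin (M + 1) => Dn N) ρ ((0 : Fin (M + 1)).insertNth g₀ g')) ∧
      Real.log (Zf U (fun _ : Fin (M + 1) => Dn N) ρ ((0 : Fin (M + 1)).insertNth g₀ g'))
        ≤ K + Real.log (Zf U (fun _ : Fin M => Dn N) ρ g') := by
    intro g₀ g'
    have hp := Zf_pos hU hD ρ hρ g'
    have hp' := Zf_pos hU hD' ρ hρ ((0 : Fin (M + 1)).insertNth g₀ g')
    constructor
    · have := Real.log_le_log (mul_pos (Real.exp_pos _) hp) (hZ g₀ g').1
      rwa [Real.log_mul (Real.exp_pos _).ne' hp.ne', Real.log_exp] at this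
    · have := Real.log_le_log hp' (hZ g₀ g').2
      rwa [Real.log_mul (Real.exp_pos _).ne' hp.ne', Real.log_exp] at this
  have e0 : FE U ρ (M + 1) = ∫ g', ∫ g₀, Real.log (Zf U (fun _ : Fin (M + 1) => Dn N) ρ
      ((0 : Fin (M + 1)).insertNth g₀ g')) ∂(gam (Fin N))
      ∂(Measure.pi fun _ : Fin M => gam (Fin N)) := by
    unfold FE Phi
    exact integral_split 0 _ hi'
  have mp := measurePreserving_piFinSuccAbove (fun _ : Fin (M + 1) => gam (Fin N)) 0
  have hF' : Integrable (fun p : (Fin N → ℝ) × (Fin M → Fin N → ℝ) =>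
      Real.log (Zf U (fun _ : Fin (M + 1) => Dn N) ρ
        ((MeasurableEquiv.piFinSuccAbove (fun _ : Fin (M + 1) => Fin N → ℝ) 0).symm p)))
      ((gam (Fin N)).prod (Measure.pi fun _ : Fin M => gam (Fin N))) :=
    (mp.symm.integrable_comp_emb (MeasurableEquiv.measurableEmbedding _)).2 hi'
  have hout : Integrable (fun g' => ∫ g₀, Real.log (Zf U (fun _ : Fin (M + 1) => Dn N) ρ
      ((0 : Fin (M + 1)).insertNth g₀ g')) ∂(gam (Fin N)))
      (Measure.pi fun _ : Fin M => gam (Fin N)) := hF'.integral_prod_right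
  have hin : ∀ g' : Fin M → Fin N → ℝ, Integrable (fun g₀ => Real.log
      (Zf U (fun _ : Fin (M + 1) => Dn N) ρ ((0 : Fin (M + 1)).insertNth g₀ g')))
      (gam (Fin N)) := by
    intro g'
    refine Integrable.of_bound ?_ (K * (M + 1 : ℕ) + |Real.log (ρ.real Set.univ)|) ?_
    · have h1 : Measurable fun g₀ : Fin N → ℝ =>
          ((0 : Fin (M + 1)).insertNth g₀ g' : Fin (M + 1) → Fin N → ℝ) := by
        refine measurable_pi_lambda _ fun a => ?_
        refine Fin.cases ?_ (fun j => ?_) a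
        · simp only [Fin.insertNth_zero, Fin.cons_zero]
          exact measurable_id
        · simp only [Fin.insertNth_zero, Fin.cons_succ]
          exact measurable_const
      exact (Real.measurable_log.comp ((measurable_Zf hU hD' ρ).comp h1)).aestronglyMeasurable
    · filter_upwards with g₀
      have h := log_Zf_bounds hU hD' ρ hρ ((0 : Fin (M + 1)).insertNth g₀ g')
      have h1 := neg_abs_le (Real.log (ρ.real Set.univ))
      have h2 := le_abs_self (Real.log (ρ.real Set.univ))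
      rw [Real.norm_eq_abs, abs_le]
      constructor <;> linarith
  have hup : FE U ρ (M + 1) ≤ K + FE U ρ M := by
    rw [e0]
    calc _ ≤ ∫ g', (K + Real.log (Zf U (fun _ : Fin M => Dn N) ρ g'))
          ∂(Measure.pi fun _ : Fin M => gam (Fin N)) := by
          refine integral_mono hout ((integrable_const _).add hi) fun g' => ?_
          calc _ ≤ ∫ _g₀, (K + Real.log (Zf U (fun _ : Fin M => Dn N) ρ g')) ∂(gam (Fin N)) :=
                integral_mono (hin g') (integrable_const _) fun g₀ => (hlog g₀ g').2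
            _ = _ := by simp
      _ = _ := by
          rw [integral_add (integrable_const _) hi]
          simp [FE, Phi]
  have hlow : -K + FE U ρ M ≤ FE U ρ (M + 1) := by
    rw [e0]
    calc _ = ∫ g', (-K + Real.log (Zf U (fun _ : Fin M => Dn N) ρ g'))
          ∂(Measure.pi fun _ : Fin M => gam (Fin N)) := by
          rw [integral_add (integrable_const _) hi]
          simp [FE, Phi]
      _ ≤ _ := by
          refine integral_mono ((integrable_const _).add hi) hout fun g' => ?_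
          calc _ = ∫ _g₀, (-K + Real.log (Zf U (fun _ : Fin M => Dn N) ρ g')) ∂(gam (Fin N)) := by
                simp
            _ ≤ _ := integral_mono (integrable_const _) (hin g') fun g₀ => (hlog g₀ g').1
  rw [abs_le]
  constructor <;> linarith

lemma FE_lipschitz (hU : Nice U K) {N : ℕ} (ρ : Measure (Fin N → ℝ)) [IsFiniteMeasure ρ]
    (hρ : 0 < ρ.real Set.univ) (M M' : ℕ) : |FE U ρ M - FE U ρ M'| ≤ K * |(M : ℝ) - M'| := by
  wlog h : M' ≤ M generalizing M M'
  · rw [abs_sub_comm, abs_sub_comm (M : ℝ)]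
    exact this M' M (by omega)
  obtain ⟨k, rfl⟩ := Nat.exists_eq_add_of_le h
  induction k with
  | zero => simp
  | succ k ih =>
    have h1 := ih (by omega)
    have h2 := FE_step hU ρ hρ (M' + k)
    have e1 : |((M' + (k + 1) : ℕ) : ℝ) - M'| = k + 1 := by
      push_cast
      rw [show (M' : ℝ) + (k + 1) - M' = k + 1 by ring, abs_of_nonneg (by positivity)]
    have e2 : |((M' + k : ℕ) : ℝ) - M'| = k := by
      push_cast
      rw [show (M' : ℝ) + k - M' = k by ring, abs_of_nonneg (by positivity)]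
    rw [e1]
    rw [e2] at h1
    calc _ = |(FE U ρ (M' + k + 1) - FE U ρ (M' + k)) + (FE U ρ (M' + k) - FE U ρ M')| := by
          rw [← add_assoc]; ring_nf
      _ ≤ K + K * k := (abs_add_le _ _).trans (add_le_add h2 h1)
      _ = _ := by ring

end Vale.Agent.P157
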