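import Vale.Agent.Lib.P157.Sphere

/-!
# Polar coordinates for the shell
-/

open MeasureTheory ProbabilityTheory Filter Topology
open scoped NNReal ENNReal

namespace Vale.Agent.P157

/-- radial projection on the unit sphere -/
noncomputable def Drad (N : ℕ) : (Fin N → ℝ) → Fin N → ℝ := fun x i => x i / Real.sqrt (∑ j, x j ^ 2)

lemma measurable_Drad (N : ℕ) : Measurable (Drad N) := by
  unfold Drad
  refine measurable_pi_lambda _ fun i => ?_
  have h : Measurable fun x : Fin N → ℝ => Real.sqrt (∑ j, x j ^ 2) :=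
    Real.continuous_sqrt.measurable.comp (by fun_prop)
  exact (measurable_pi_apply i).div h

/-- the surface measure on the Euclidean unit sphere -/
noncomputable abbrev sig (N : ℕ) : Measure (Metric.sphere (0 : EuclideanSpace ℝ (Fin N)) 1) :=
  (volume : Measure (EuclideanSpace ℝ (Fin N))).toSphere

lemma polar_aux {δ : ℝ} (hδ1 : δ < 1) {N : ℕ} (hN : 0 < N) :
    ∃ v : ℝ, ∀ Ψ : (Fin N → ℝ) → ℝ,
      ∫ x in shell δ N, Ψ (Drad N x)
        = (∫ u, Ψ (fun i => (u : EuclideanSpace ℝ (Fin N)) i) ∂(sig N)) * v := by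
  have hN' : (0 : ℝ) < N := by exact_mod_cast hN
  set V := Measure.volumeIoiPow (Module.finrank ℝ (EuclideanSpace ℝ (Fin N)) - 1) with hV
  set B : Set (Set.Ioi (0 : ℝ)) := {r | (1 - δ) * N ≤ (r : ℝ) ^ 2 ∧ (r : ℝ) ^ 2 ≤ (1 + δ) * N} with hB
  refine ⟨∫ r, B.indicator (fun _ => (1 : ℝ)) r ∂V, fun Ψ => ?_⟩
  have e1 : ∫ x in shell δ N, Ψ (Drad N x)
      = ∫ x, (shell δ N).indicator (fun x => Ψ (Drad N x)) x :=
    (integral_indicator (measurableSet_shell δ N)).symm
  have e2 : ∫ x, (shell δ N).indicator (fun x => Ψ (Drad N x)) x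
      = ∫ y : EuclideanSpace ℝ (Fin N), (shell δ N).indicator (fun x => Ψ (Drad N x)) (WithLp.ofLp y) :=
    ((PiLp.volume_preserving_ofLp (Fin N)).integral_comp
      (MeasurableEquiv.toLp 2 (Fin N → ℝ)).symm.measurableEmbedding _).symm
  have e3 : ∫ y : EuclideanSpace ℝ (Fin N),
        (shell δ N).indicator (fun x => Ψ (Drad N x)) (WithLp.ofLp y)
      = ∫ y in ({0}ᶜ : Set (EuclideanSpace ℝ (Fin N))),
        (shell δ N).indicator (fun x => Ψ (Drad N x)) (WithLp.ofLp y) := by
    rw [setIntegral_eq_integral_of_forall_compl_eq_zero]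
    intro y hy
    have hy0 : y = 0 := by simpa using hy
    subst hy0
    rw [Set.indicator_of_notMem]
    intro h
    have h1 := h.1
    simp only [PiLp.zero_apply, ne_eq, OfNat.ofNat_ne_zero, not_false_eq_true, zero_pow,
      Finset.sum_const_zero] at h1
    nlinarith
  rw [e1, e2, e3, ← integral_subtype_comap (measurableSet_singleton _).compl]
  have mp := Measure.measurePreserving_homeomorphUnitSphereProd
    (volume : Measure (EuclideanSpace ℝ (Fin N)))
  have e4 := mp.integral_comp (Homeomorph.measurableEmbedding _)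
    (fun p : (Metric.sphere (0 : EuclideanSpace ℝ (Fin N)) 1) × (Set.Ioi (0 : ℝ)) =>
      Ψ (fun i => (p.1 : EuclideanSpace ℝ (Fin N)) i) * B.indicator (fun _ => (1 : ℝ)) p.2)
  rw [← integral_prod_mul, ← e4]
  refine integral_congr_ae ?_
  filter_upwards with y
  have hy : (y : EuclideanSpace ℝ (Fin N)) ≠ 0 := y.2
  have hn : 0 < ‖(y : EuclideanSpace ℝ (Fin N))‖ := norm_pos_iff.2 hy
  have hsq : ∑ j, ((y : EuclideanSpace ℝ (Fin N)) j) ^ 2 = ‖(y : EuclideanSpace ℝ (Fin N))‖ ^ 2 := by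
    rw [EuclideanSpace.norm_sq_eq]
    simp
  have hdir : Drad N (WithLp.ofLp (y : EuclideanSpace ℝ (Fin N)))
      = fun i => (((homeomorphUnitSphereProd (EuclideanSpace ℝ (Fin N)) y).1 :
        Metric.sphere (0 : EuclideanSpace ℝ (Fin N)) 1) : EuclideanSpace ℝ (Fin N)) i := by
    funext i
    unfold Drad
    rw [hsq, Real.sqrt_sq hn.le]
    simp [homeomorphUnitSphereProd_apply_fst_coe, div_eq_inv_mul]
  have hmem : (WithLp.ofLp (y : EuclideanSpace ℝ (Fin N))) ∈ shell δ N
      ↔ (homeomorphUnitSphereProd (EuclideanSpace ℝ (Fin N)) y).2 ∈ B := by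
    simp only [shell, Set.mem_ofPred_eq, hB, homeomorphUnitSphereProd_apply_snd_coe]
    rw [hsq]
  by_cases h : (WithLp.ofLp (y : EuclideanSpace ℝ (Fin N))) ∈ shell δ N
  · rw [Set.indicator_of_mem h, Set.indicator_of_mem (hmem.1 h), hdir, mul_one]
  · rw [Set.indicator_of_notMem h, Set.indicator_of_notMem (fun h' => h (hmem.2 h')), mul_zero]

lemma sig_pos {N : ℕ} (hN : 0 < N) : sig N Set.univ ≠ 0 := by
  have : Nonempty (Fin N) := ⟨⟨0, hN⟩⟩
  have : sig N ≠ 0 := Measure.toSphere_ne_zero _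
  exact fun h => this (Measure.measure_univ_eq_zero.1 h)

/-- **Polar coordinates.** -/
lemma polar_shell {δ : ℝ} (hδ1 : δ < 1) {N : ℕ} (hN : 0 < N) (Ψ : (Fin N → ℝ) → ℝ)
    (hΨ : Measurable Ψ) :
    ∫ x in shell δ N, Ψ (Drad N x)
      = volume.real (shell δ N) * ∫ x, Ψ (Dn N x) ∂(sphereMeasure N) := by
  have hN' : (0 : ℝ) < N := by exact_mod_cast hN
  obtain ⟨v, hv⟩ := polar_aux (δ := δ) hδ1 hN
  have h1 := hv (fun _ => 1)
  simp only [integral_const, MeasurableSet.univ, measureReal_restrict_apply, Set.univ_inter,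
    smul_eq_mul, mul_one] at h1
  have hσ : (sig N).real Set.univ ≠ 0 := by
    rw [measureReal_def]
    exact (ENNReal.toReal_pos (sig_pos hN) (measure_ne_top _ _)).ne'
  have h2 : ∫ x, Ψ (Dn N x) ∂(sphereMeasure N)
      = ((sig N).real Set.univ)⁻¹ * ∫ u, Ψ (fun i => (u : EuclideanSpace ℝ (Fin N)) i) ∂(sig N) := by
    unfold sphereMeasure
    have hm : Measurable fun (u : Metric.sphere (0 : EuclideanSpace ℝ (Fin N)) 1) (i : Fin N) =>
        Real.sqrt N * (u : EuclideanSpace ℝ (Fin N)) i := by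
      refine measurable_pi_lambda _ fun i => ?_
      refine measurable_const.mul ?_
      have : Continuous fun u : Metric.sphere (0 : EuclideanSpace ℝ (Fin N)) 1 =>
          (u : EuclideanSpace ℝ (Fin N)) i := by fun_prop
      exact this.measurable
    have hc : Measurable fun x => Ψ (Dn N x) := hΨ.comp (measurable_Dn N)
    rw [integral_map hm.aemeasurable hc.aestronglyMeasurable,
      integral_smul_measure, smul_eq_mul, ENNReal.toReal_inv]
    congr 1
    refine integral_congr_ae ?_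
    filter_upwards with u
    congr 1
    funext i
    unfold Dn
    rw [mul_div_cancel_left₀ _ (Real.sqrt_pos.2 hN').ne']
  rw [hv Ψ, h2, h1]
  field_simp

end Vale.Agent.P157
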