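import Vale.Agent.Lib.P157.Switch
import Vale.Agent.Lib.P157.Defs

/-!
# Shell priors and the sphere
-/

open MeasureTheory ProbabilityTheory Filter Topology
open scoped NNReal ENNReal

namespace Vale.Agent.P157

/-- the shell `(1-δ) N ≤ |x|² ≤ (1+δ) N` -/
def shell (δ : ℝ) (N : ℕ) : Set (Fin N → ℝ) :=
  {x | (1 - δ) * N ≤ ∑ i, x i ^ 2 ∧ ∑ i, x i ^ 2 ≤ (1 + δ) * N}

lemma measurableSet_shell (δ : ℝ) (N : ℕ) : MeasurableSet (shell δ N) := by
  have h : Measurable fun x : Fin N → ℝ => ∑ i, x i ^ 2 := by fun_prop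
  exact (measurableSet_le measurable_const h).inter (measurableSet_le h measurable_const)

lemma shell_volume_lt_top (δ : ℝ) (N : ℕ) : volume (shell δ N) < ⊤ := by
  have hb : Bornology.IsBounded (shell δ N) := by
    rw [Metric.isBounded_iff_subset_closedBall (0 : Fin N → ℝ)]
    refine ⟨Real.sqrt ((1 + δ) * N), fun x hx => ?_⟩
    rw [mem_closedBall_zero_iff]
    refine (pi_norm_le_iff_of_nonneg (Real.sqrt_nonneg _)).2 fun i => ?_
    rw [Real.norm_eq_abs]
    refine Real.abs_le_sqrt ?_
    calc x i ^ 2 ≤ ∑ j, x j ^ 2 :=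
          Finset.single_le_sum (f := fun j => x j ^ 2) (fun j _ => sq_nonneg _) (Finset.mem_univ i)
      _ ≤ _ := hx.2
  exact hb.measure_lt_top

lemma shell_volume_pos {δ : ℝ} (hδ : 0 < δ) {N : ℕ} (hN : 0 < N) : 0 < volume (shell δ N) := by
  have hN' : (0 : ℝ) < N := by exact_mod_cast hN
  set O : Set (Fin N → ℝ) := {x | (1 - δ) * N < ∑ i, x i ^ 2 ∧ ∑ i, x i ^ 2 < (1 + δ) * N} with hO
  have hopen : IsOpen O := by
    have h : Continuous fun x : Fin N → ℝ => ∑ i, x i ^ 2 := by fun_prop
    exact (isOpen_lt continuous_const h).inter (isOpen_lt h continuous_const)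
  have hne : O.Nonempty := by
    refine ⟨fun _ => 1, ?_, ?_⟩
    · simp
      nlinarith
    · simp
      nlinarith
  exact lt_of_lt_of_le (hopen.measure_pos volume hne)
    (measure_mono fun x hx => ⟨hx.1.le, hx.2.le⟩)

lemma measurable_append (N₁ N₂ : ℕ) :
    Measurable (fun p : (Fin N₁ → ℝ) × (Fin N₂ → ℝ) => Fin.append p.1 p.2) := by
  refine measurable_pi_lambda _ fun i => ?_
  refine Fin.addCases (fun i => ?_) (fun i => ?_) i
  · simp only [Fin.append_left]
    fun_prop
  · simp only [Fin.append_right]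
    fun_prop

lemma map_append_pi (N₁ N₂ : ℕ) (μ : Measure ℝ) [SigmaFinite μ] :
    ((Measure.pi fun _ : Fin N₁ => μ).prod (Measure.pi fun _ : Fin N₂ => μ)).map
      (fun p => Fin.append p.1 p.2) = Measure.pi fun _ : Fin (N₁ + N₂) => μ := by
  symm
  refine Measure.pi_eq fun s hs => ?_
  rw [Measure.map_apply (measurable_append N₁ N₂) (MeasurableSet.univ_pi hs)]
  have h1 : (fun p : (Fin N₁ → ℝ) × (Fin N₂ → ℝ) => Fin.append p.1 p.2) ⁻¹' (Set.univ.pi s)
      = (Set.univ.pi fun i => s (Fin.castAdd N₂ i)) ×ˢ (Set.univ.pi fun i => s (Fin.natAdd N₁ i)) := by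
    ext p
    simp only [Set.mem_preimage, Set.mem_univ_pi, Set.mem_prod]
    constructor
    · intro h
      exact ⟨fun i => by simpa using h (Fin.castAdd N₂ i), fun i => by simpa using h (Fin.natAdd N₁ i)⟩
    · rintro ⟨ha, hb⟩ i
      refine Fin.addCases (fun i => ?_) (fun i => ?_) i
      · simpa using ha i
      · simpa using hb i
  rw [h1, Measure.prod_prod, Measure.pi_pi, Measure.pi_pi, Fin.prod_univ_add]

/-- the shell prior -/
noncomputable def shellPrior (δ : ℝ) (N : ℕ) : Measure (Fin N → ℝ) :=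
  (volume : Measure (Fin N → ℝ)).restrict (shell δ N)

lemma shell_growth {δ : ℝ} (hδ : 0 < δ) {N : ℕ} (hN : 0 < N) :
    Real.log (volume.real (shell δ N)) ≤ (((1 + δ) / 2) + Real.log (Real.sqrt (2 * Real.pi))) * N := by
  have hN' : (0 : ℝ) < N := by exact_mod_cast hN
  have hpos : 0 < volume.real (shell δ N) :=
    ENNReal.toReal_pos (shell_volume_pos hδ hN).ne' (shell_volume_lt_top δ N).ne
  have hg : Integrable (fun x : Fin N → ℝ => ∏ i, Real.exp (-(1 / 2) * x i ^ 2)) := by
    exact Integrable.fintype_prod fun _ => integrable_exp_neg_mul_sq (by norm_num)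
  have h1 : volume.real (shell δ N) ≤ Real.exp ((1 + δ) / 2 * N) * (Real.sqrt (2 * Real.pi)) ^ N := by
    calc volume.real (shell δ N) = ∫ x in shell δ N, (1 : ℝ) := by simp
      _ ≤ ∫ x in shell δ N, Real.exp ((1 + δ) / 2 * N) * ∏ i, Real.exp (-(1 / 2) * x i ^ 2) := by
          refine setIntegral_mono_on ?_ ((hg.const_mul _).integrableOn) (measurableSet_shell δ N) ?_
          · exact integrableOn_const (shell_volume_lt_top δ N).ne
          · intro x hx
            rw [← Real.exp_sum, ← Real.exp_add]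
            rw [← Finset.mul_sum]
            apply Real.one_le_exp
            have := hx.2
            linarith
      _ ≤ ∫ x : Fin N → ℝ, Real.exp ((1 + δ) / 2 * N) * ∏ i, Real.exp (-(1 / 2) * x i ^ 2) := by
          refine setIntegral_le_integral (hg.const_mul _) ?_
          filter_upwards with x
          positivity
      _ = _ := by
          rw [integral_const_mul, integral_fintype_prod_volume_eq_pow
            (fun t : ℝ => Real.exp (-(1 / 2) * t ^ 2)), integral_gaussian, Fintype.card_fin]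
          congr 3
          field_simp
  have h2 := Real.log_le_log hpos h1
  rw [Real.log_mul (Real.exp_pos _).ne' (by positivity), Real.log_exp, Real.log_pow] at h2
  linarith

lemma shellPrior_isPrior {δ : ℝ} (hδ : 0 < δ) : Prior (shellPrior δ) where
  fin N := ⟨by
    unfold shellPrior
    rw [Measure.restrict_apply_univ]
    exact shell_volume_lt_top δ N⟩
  pos N hN := by
    unfold shellPrior
    rw [measureReal_def, Measure.restrict_apply_univ]
    exact ENNReal.toReal_pos (shell_volume_pos hδ hN).ne' (shell_volume_lt_top δ N).ne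
  super N₁ N₂ _ _ := by
    refine Measure.le_iff.2 fun S hS => ?_
    unfold shellPrior
    rw [Measure.map_apply (measurable_append N₁ N₂) hS, Measure.restrict_apply hS,
      Measure.prod_restrict,
      Measure.restrict_apply ((measurable_append N₁ N₂) hS)]
    have hvol : (volume : Measure (Fin (N₁ + N₂) → ℝ))
        = ((volume : Measure (Fin N₁ → ℝ)).prod (volume : Measure (Fin N₂ → ℝ))).map
          (fun p => Fin.append p.1 p.2) := (map_append_pi N₁ N₂ volume).symm
    rw [hvol, Measure.map_apply (measurable_append N₁ N₂) (hS.inter (measurableSet_shell _ _))]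
    refine measure_mono ?_
    rintro ⟨x, y⟩ ⟨hxy, hx, hy⟩
    refine ⟨hxy, ?_⟩
    have e : ∑ i, (Fin.append x y i) ^ 2 = ∑ i, x i ^ 2 + ∑ i, y i ^ 2 := by
      rw [Fin.sum_univ_add]
      simp
    have hx1 := hx.1
    have hx2 := hx.2
    have hy1 := hy.1
    have hy2 := hy.2
    simp only at hx1 hx2 hy1 hy2
    show (1 - δ) * ((N₁ + N₂ : ℕ) : ℝ) ≤ ∑ i, (Fin.append x y i) ^ 2 ∧
      ∑ i, (Fin.append x y i) ^ 2 ≤ (1 + δ) * ((N₁ + N₂ : ℕ) : ℝ)
    rw [e]
    push_cast
    constructor <;> linarith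
  growth := ⟨(1 + δ) / 2 + Real.log (Real.sqrt (2 * Real.pi)), fun N hN => by
    unfold shellPrior
    rw [measureReal_def, Measure.restrict_apply_univ]
    exact shell_growth hδ hN⟩

end Vale.Agent.P157
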