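import Vale.Agent.Lib.P157.Limit

/-!
# Replacing the field directions of the patterns by nearby ones
-/

open MeasureTheory ProbabilityTheory Filter Topology
open scoped NNReal ENNReal

namespace Vale.Agent.P157

lemma abs_log_sub_log_le {A B m : ℝ} (hm : 0 < m) (hA : m ≤ A) (hB : m ≤ B) :
    |Real.log A - Real.log B| ≤ |A - B| / m := by
  have hA0 : 0 < A := lt_of_lt_of_le hm hA
  have hB0 : 0 < B := lt_of_lt_of_le hm hB
  have key : ∀ {x y : ℝ}, 0 < x → 0 < y → m ≤ y → Real.log x - Real.log y ≤ |x - y| / m := by
    intro x y hx hy hmy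
    rw [← Real.log_div hx.ne' hy.ne']
    calc Real.log (x / y) ≤ x / y - 1 := Real.log_le_sub_one_of_pos (div_pos hx hy)
      _ = (x - y) / y := by field_simp
      _ ≤ |x - y| / y := div_le_div_of_nonneg_right (le_abs_self _) hy.le
      _ ≤ |x - y| / m := div_le_div_of_nonneg_left (abs_nonneg _) hm hmy
  rw [abs_le]
  constructor
  · have := key hB0 hA0 hA
    rw [abs_sub_comm] at this
    linarith
  · exact key hA0 hB0 hB

section

variable {ι : Type*} [Fintype ι] {X : Type*} [MeasurableSpace X] {U : ℝ → ℝ} {K : ℝ}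

lemma Phi_switch (hU : Nice U K) (G : Measure X) [IsFiniteMeasure G] (hG : 0 < G.real Set.univ)
    {M : ℕ} (D : Fin M → X → ι → ℝ) (hD : ∀ a, Measurable (D a)) (a : Fin M)
    (E : X → ι → ℝ) (hE : Measurable E) (ε : ℝ)
    (hε : ∀ᵐ x ∂G, ∫ g, |U (dotp g (D a x)) - U (dotp g (E x))| ∂(gam ι) ≤ ε) :
    |Phi U D G - Phi U (Function.update D a E) G| ≤ Real.exp K * ε := by
  obtain _ | M := M
  · exact a.elim0
  have hDE : ∀ a', Measurable (Function.update D a E a') := by
    intro a'
    by_cases h : a' = a
    · subst h; simpa using hE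
    · simpa [Function.update_of_ne h] using hD a'
  have mp := measurePreserving_piFinSuccAbove (fun _ : Fin (M + 1) => gam ι) a
  have hprod : ∀ (D' : Fin (M + 1) → X → ι → ℝ), (∀ a', Measurable (D' a')) → Integrable
      (fun p : (ι → ℝ) × (Fin M → ι → ℝ) => Real.log (Zf U D' G
        ((MeasurableEquiv.piFinSuccAbove (fun _ : Fin (M + 1) => ι → ℝ) a).symm p)))
        ((gam ι).prod (Measure.pi fun _ : Fin M => gam ι)) := fun D' hD' =>
      (mp.symm.integrable_comp_emb (MeasurableEquiv.measurableEmbedding _)).2
        (integrable_log_Zf hU hD' G hG _)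
  have hout : ∀ (D' : Fin (M + 1) → X → ι → ℝ), (∀ a', Measurable (D' a')) → Integrable
      (fun g' => ∫ g₀, Real.log (Zf U D' G (a.insertNth g₀ g')) ∂(gam ι))
      (Measure.pi fun _ : Fin M => gam ι) := fun D' hD' => (hprod D' hD').integral_prod_right
  have hins : ∀ g' : Fin M → ι → ℝ, Measurable fun g₀ : ι → ℝ =>
      (a.insertNth g₀ g' : Fin (M + 1) → ι → ℝ) := by
    intro g'
    refine measurable_pi_lambda _ fun b => ?_
    refine Fin.succAboveCases a ?_ (fun j => ?_) b
    · simp only [Fin.insertNth_apply_same]; exact measurable_id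
    · simp only [Fin.insertNth_apply_succAbove]; exact measurable_const
  have hin : ∀ (D' : Fin (M + 1) → X → ι → ℝ), (∀ a', Measurable (D' a')) →
      ∀ g' : Fin M → ι → ℝ, Integrable (fun g₀ => Real.log (Zf U D' G (a.insertNth g₀ g')))
        (gam ι) := by
    intro D' hD' g'
    refine Integrable.of_bound ?_ (K * (M + 1 : ℕ) + |Real.log (G.real Set.univ)|) ?_
    · exact (Real.measurable_log.comp ((measurable_Zf hU hD' G).comp (hins g'))).aestronglyMeasurable
    · filter_upwards with g₀
      have h := log_Zf_bounds hU hD' G hG (a.insertNth g₀ g')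
      have h1 := neg_abs_le (Real.log (G.real Set.univ))
      have h2 := le_abs_self (Real.log (G.real Set.univ))
      rw [Real.norm_eq_abs, abs_le]
      constructor <;> linarith
  unfold Phi
  rw [integral_split a _ (integrable_log_Zf hU hD G hG _),
    integral_split a _ (integrable_log_Zf hU hDE G hG _),
    ← integral_sub (hout _ hD) (hout _ hDE)]
  have hpt : ∀ g' : Fin M → ι → ℝ, |∫ g₀, Real.log (Zf U D G (a.insertNth g₀ g')) ∂(gam ι)
      - ∫ g₀, Real.log (Zf U (Function.update D a E) G (a.insertNth g₀ g')) ∂(gam ι)|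
        ≤ Real.exp K * ε := by
    intro g'
    set W : X → ℝ := fun x => ∏ j, U (dotp (g' j) (D (a.succAbove j) x)) with hW
    have hWm : Measurable W := by
      refine Finset.measurable_prod _ fun j _ => hU.meas.comp ?_
      unfold dotp
      refine Finset.measurable_sum _ fun i _ => ?_
      exact measurable_const.mul ((measurable_pi_apply i).comp (hD _))
    have hWb : ∀ x, Real.exp (-(K * M)) ≤ W x ∧ W x ≤ Real.exp (K * M) := fun x =>
      prod_bounds hU (fun j => D (a.succAbove j)) g' x
    have hWpos : ∀ x, 0 < W x := fun x => lt_of_lt_of_le (Real.exp_pos _) (hWb x).1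
    have hWint : Integrable W G := by
      refine Integrable.of_bound hWm.aestronglyMeasurable (Real.exp (K * M)) ?_
      filter_upwards with x
      rw [Real.norm_eq_abs, abs_of_pos (hWpos x)]
      exact (hWb x).2
    have hWtot : 0 < ∫ x, W x ∂G := by
      calc 0 < Real.exp (-(K * M)) * G.real Set.univ := mul_pos (Real.exp_pos _) hG
        _ = ∫ _x, Real.exp (-(K * M)) ∂G := by rw [integral_const, smul_eq_mul, mul_comm]
        _ ≤ _ := integral_mono (integrable_const _) hWint fun x => (hWb x).1
    have hZ : ∀ (Ea : X → ι → ℝ) (g₀ : ι → ℝ),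
        Zf U (Function.update D a Ea) G (a.insertNth g₀ g')
        = ∫ x, U (dotp g₀ (Ea x)) * W x ∂G := by
      intro Ea g₀
      unfold Zf
      refine integral_congr_ae ?_
      filter_upwards with x
      rw [Fin.prod_univ_succAbove _ a]
      simp only [Fin.insertNth_apply_same, Function.update_self, Fin.insertNth_apply_succAbove, hW]
      congr 1
      refine Finset.prod_congr rfl fun j _ => ?_
      rw [Function.update_of_ne (Fin.succAbove_ne a j)]
    have hZ0 : ∀ g₀ : ι → ℝ, Zf U D G (a.insertNth g₀ g') = ∫ x, U (dotp g₀ (D a x)) * W x ∂G := by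
      intro g₀
      have := hZ (D a) g₀
      rwa [Function.update_eq_self] at this
    have hmeasU : ∀ (Ea : X → ι → ℝ), Measurable Ea → ∀ g₀ : ι → ℝ,
        Measurable fun x => U (dotp g₀ (Ea x)) := by
      intro Ea hEa g₀
      refine hU.meas.comp ?_
      unfold dotp
      refine Finset.measurable_sum _ fun i _ => ?_
      exact measurable_const.mul ((measurable_pi_apply i).comp hEa)
    have hintU : ∀ (Ea : X → ι → ℝ), Measurable Ea → ∀ g₀ : ι → ℝ,
        Integrable (fun x => U (dotp g₀ (Ea x)) * W x) G := by
      intro Ea hEa g₀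
      refine Integrable.bdd_mul (c := Real.exp K) hWint (hmeasU Ea hEa g₀).aestronglyMeasurable ?_
      filter_upwards with x
      rw [Real.norm_eq_abs, abs_of_pos (hU.pos _)]
      exact hU.upper _
    have hlow : ∀ (Ea : X → ι → ℝ), Measurable Ea → ∀ g₀ : ι → ℝ,
        Real.exp (-K) * ∫ x, W x ∂G ≤ ∫ x, U (dotp g₀ (Ea x)) * W x ∂G := by
      intro Ea hEa g₀
      rw [← integral_const_mul]
      exact integral_mono (hWint.const_mul _) (hintU Ea hEa g₀) fun x =>
        mul_le_mul_of_nonneg_right (hU.lower _) (hWpos x).le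
    have hdiffint : ∀ g₀ : ι → ℝ, Integrable
        (fun x => |U (dotp g₀ (D a x)) - U (dotp g₀ (E x))| * W x) G := by
      intro g₀
      have h1 := (hintU (D a) (hD a) g₀).sub (hintU E hE g₀)
      refine h1.abs.congr ?_
      filter_upwards with x
      simp only [Pi.sub_apply]
      rw [← sub_mul, abs_mul, abs_of_pos (hWpos x)]
    have hlogdiff : ∀ g₀ : ι → ℝ, |Real.log (Zf U D G (a.insertNth g₀ g'))
        - Real.log (Zf U (Function.update D a E) G (a.insertNth g₀ g'))|
          ≤ (Real.exp K / ∫ x, W x ∂G)
            * ∫ x, |U (dotp g₀ (D a x)) - U (dotp g₀ (E x))| * W x ∂G := by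
      intro g₀
      rw [hZ0, hZ E]
      refine (abs_log_sub_log_le (mul_pos (Real.exp_pos (-K)) hWtot)
        (hlow (D a) (hD a) g₀) (hlow E hE g₀)).trans ?_
      have h1 : |∫ x, U (dotp g₀ (D a x)) * W x ∂G - ∫ x, U (dotp g₀ (E x)) * W x ∂G|
          ≤ ∫ x, |U (dotp g₀ (D a x)) - U (dotp g₀ (E x))| * W x ∂G := by
        rw [← integral_sub (hintU (D a) (hD a) g₀) (hintU E hE g₀)]
        refine (abs_integral_le_integral_abs).trans (le_of_eq ?_)
        refine integral_congr_ae ?_
        filter_upwards with x
        rw [← sub_mul, abs_mul, abs_of_pos (hWpos x)]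
      rw [div_le_iff₀ (mul_pos (Real.exp_pos (-K)) hWtot)]
      refine h1.trans (le_of_eq ?_)
      rw [Real.exp_neg]
      field_simp
    rw [← integral_sub (hin _ hD g') (hin _ hDE g')]
    have hjoint : Integrable (Function.uncurry fun (g₀ : ι → ℝ) (x : X) =>
        |U (dotp g₀ (D a x)) - U (dotp g₀ (E x))| * W x) ((gam ι).prod G) := by
      refine Integrable.of_bound ?_ ((2 * Real.exp K) * Real.exp (K * M)) ?_
      · have m1 : Measurable fun p : (ι → ℝ) × X => U (dotp p.1 (D a p.2)) :=
          hU.meas.comp (measurable_dotp_comp (hD a))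
        have m2 : Measurable fun p : (ι → ℝ) × X => U (dotp p.1 (E p.2)) :=
          hU.meas.comp (measurable_dotp_comp hE)
        have m3 : Measurable fun p : (ι → ℝ) × X => |U (dotp p.1 (D a p.2)) - U (dotp p.1 (E p.2))| :=
          (measurable_norm.comp (m1.sub m2))
        exact (m3.mul (hWm.comp measurable_snd)).aestronglyMeasurable
      · filter_upwards with p
        simp only [Function.uncurry]
        rw [norm_mul, Real.norm_eq_abs, Real.norm_eq_abs, abs_abs, abs_of_pos (hWpos _)]
        refine mul_le_mul ?_ (hWb _).2 (hWpos _).le (by positivity)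
        rw [abs_le]
        have a1 := hU.pos (dotp p.1 (D a p.2))
        have a2 := hU.pos (dotp p.1 (E p.2))
        have a3 := hU.upper (dotp p.1 (D a p.2))
        have a4 := hU.upper (dotp p.1 (E p.2))
        constructor <;> linarith
    calc _ ≤ ∫ g₀, |Real.log (Zf U D G (a.insertNth g₀ g'))
        - Real.log (Zf U (Function.update D a E) G (a.insertNth g₀ g'))| ∂(gam ι) :=
          abs_integral_le_integral_abs
      _ ≤ ∫ g₀, (Real.exp K / ∫ x, W x ∂G)
            * ∫ x, |U (dotp g₀ (D a x)) - U (dotp g₀ (E x))| * W x ∂G ∂(gam ι) :=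
          integral_mono ((hin _ hD g').sub (hin _ hDE g')).abs
            (hjoint.integral_prod_left.const_mul _) hlogdiff
      _ = (Real.exp K / ∫ x, W x ∂G) * ∫ x, (∫ g₀, |U (dotp g₀ (D a x)) - U (dotp g₀ (E x))|
            ∂(gam ι)) * W x ∂G := by
          rw [integral_const_mul, integral_integral_swap hjoint]
          congr 1
          refine integral_congr_ae ?_
          filter_upwards with x
          rw [integral_mul_const]
      _ ≤ (Real.exp K / ∫ x, W x ∂G) * ∫ x, ε * W x ∂G := by
          refine mul_le_mul_of_nonneg_left ?_ (by positivity)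
          have hj2 := hjoint.integral_prod_right
          refine integral_mono_ae ?_ (hWint.const_mul ε) ?_
          · refine hj2.congr ?_
            filter_upwards with x
            simp only [Function.uncurry]
            rw [integral_mul_const]
          · filter_upwards [hε] with x hx
            exact mul_le_mul_of_nonneg_right hx (hWpos x).le
      _ = Real.exp K * ε := by
          rw [integral_const_mul]
          field_simp
  calc _ ≤ ∫ g', |∫ g₀, Real.log (Zf U D G (a.insertNth g₀ g')) ∂(gam ι)
      - ∫ g₀, Real.log (Zf U (Function.update D a E) G (a.insertNth g₀ g')) ∂(gam ι)|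
        ∂(Measure.pi fun _ : Fin M => gam ι) := abs_integral_le_integral_abs
    _ ≤ ∫ _g', Real.exp K * ε ∂(Measure.pi fun _ : Fin M => gam ι) :=
        integral_mono ((hout _ hD).sub (hout _ hDE)).abs (integrable_const _) hpt
    _ = _ := by simp

lemma Phi_switch_all (hU : Nice U K) (G : Measure X) [IsFiniteMeasure G]
    (hG : 0 < G.real Set.univ) (M : ℕ) (D : X → ι → ℝ) (hD : Measurable D)
    (E : X → ι → ℝ) (hE : Measurable E) (ε : ℝ)
    (hε : ∀ᵐ x ∂G, ∫ g, |U (dotp g (D x)) - U (dotp g (E x))| ∂(gam ι) ≤ ε) :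
    |Phi U (fun _ : Fin M => D) G - Phi U (fun _ : Fin M => E) G| ≤ M * (Real.exp K * ε) := by
  set T : ℕ → Fin M → X → ι → ℝ := fun k a => if (a : ℕ) < k then E else D with hT
  have hTm : ∀ k a, Measurable (T k a) := by
    intro k a
    simp only [hT]
    split_ifs
    · exact hE
    · exact hD
  have hstep : ∀ k, k ≤ M → |Phi U (T 0) G - Phi U (T k) G| ≤ k * (Real.exp K * ε) := by
    intro k
    induction k with
    | zero => intro _; simp
    | succ k ih =>
      intro hk
      have h1 := ih (by omega)
      have hkM : k < M := by omega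
      have h2 := Phi_switch hU G hG (T k) (hTm k) ⟨k, hkM⟩ E hE ε (by
        have : T k ⟨k, hkM⟩ = D := by simp [hT]
        rw [this]
        exact hε)
      have h3 : Function.update (T k) ⟨k, hkM⟩ E = T (k + 1) := by
        funext a
        by_cases h : a = ⟨k, hkM⟩
        · subst h
          simp [hT]
        · rw [Function.update_of_ne h]
          have h' : (a : ℕ) ≠ k := fun e => h (Fin.ext e)
          simp only [hT]
          by_cases h'' : (a : ℕ) < k
          · simp [h'', Nat.lt_succ_of_lt h'']
          · have : ¬ (a : ℕ) < k + 1 := by omega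
            simp [h'', this]
      rw [h3] at h2
      calc _ = |(Phi U (T 0) G - Phi U (T k) G) + (Phi U (T k) G - Phi U (T (k + 1)) G)| := by
            congr 1; ring
        _ ≤ k * (Real.exp K * ε) + Real.exp K * ε := (abs_add_le _ _).trans (add_le_add h1 h2)
        _ = _ := by push_cast; ring
  have h0 : T 0 = fun _ => D := by funext a; simp [hT]
  have h1 : T M = fun _ => E := by funext a; simp [hT]
  have := hstep M le_rfl
  rwa [h0, h1] at this

end

end Vale.Agent.P157
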